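import Vale.Agent.P220Z.Rig.Defs

/-!
# P220: the one parameter group `rho` through the shift
-/

open Set Topology Real
open scoped RealInnerProductSpace

namespace Vale.Agent.P220Z.Rig

open Vale.Agent.P220Z.Def

namespace Circ

theorem sum5 {M : Type} [AddCommMonoid M] (f : ℝ → M) :
    ∑ j : ZMod 5, f (j.val : ℝ) = f 0 + f 1 + f 2 + f 3 + f 4 := by
  have h := Fin.sum_univ_five fun j : Fin 5 => f ((j : ℕ) : ℝ)
  simp only [Fin.val_zero, Fin.val_one, Fin.val_two, Nat.cast_zero, Nat.cast_one,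
    Nat.cast_ofNat] at h
  exact h

theorem sum_cos (m : ℕ) (h0 : 0 < m) (h5 : m < 5) (α : ℝ) :
    ∑ j : ZMod 5, cos (α + m * (2 * π / 5) * j.val) = 0 := by
  have hm0 : (0 : ℝ) < m := by exact_mod_cast h0
  have hm5 : (m : ℝ) < 5 := by exact_mod_cast h5
  obtain ⟨h, hh⟩ : ∃ h : ℝ, h = m * π / 5 := ⟨_, rfl⟩
  have h1 : 0 < sin h := sin_pos_of_pos_of_lt_pi (by rw [hh]; positivity)
    (by nlinarith [pi_pos])
  have h2 : ∀ t : ℝ, 2 * sin h * cos (α + m * (2 * π / 5) * t) =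
      sin (α + (2 * t + 1) * h) - sin (α + (2 * t - 1) * h) := fun t => by
    rw [sin_sub_sin, hh]
    congr 3 <;> ring
  have h3 : sin (α + (2 * 4 + 1) * h) = sin (α + (2 * 0 - 1) * h) := by
    rw [← sin_add_nat_mul_two_pi (α + (2 * 0 - 1) * h) m, hh]
    congr 1
    ring
  refine mul_left_cancel₀ (mul_pos two_pos h1).ne' ?_
  rw [sum5 fun t => cos (α + m * (2 * π / 5) * t)]
  simp only [mul_add (2 * sin h), h2, h3]
  norm_num

theorem ker5_neg (x : ℝ) : ker5 (-x) = ker5 x := by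
  simp only [ker5, mul_neg, neg_div, cos_neg]

theorem ker5_sub (x y : ℝ) : ker5 (x - y) = ker5 (y - x) := by rw [← ker5_neg, neg_sub]

theorem ker5_add_five (x : ℝ) : ker5 (x + 5) = ker5 x := by
  rw [ker5, ker5, ← cos_add_two_pi (2 * π * x / 5), ← cos_add_nat_mul_two_pi (4 * π * x / 5) 2]
  congr 5 <;> push_cast <;> ring

theorem abs_ker5 (x : ℝ) : |ker5 x| ≤ 1 := by
  rw [ker5, abs_le]
  constructor <;> linarith [cos_le_one (2 * π * x / 5), neg_one_le_cos (2 * π * x / 5),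
    cos_le_one (4 * π * x / 5), neg_one_le_cos (4 * π * x / 5)]

/-- the kernel on the cyclic group -/
noncomputable def kz (s : ℝ) (m : ZMod 5) : ℝ := ker5 (m.val - s)

theorem ker5_eq (j i : ZMod 5) (s : ℝ) : ker5 ((j.val : ℝ) - i.val - s) = kz s (j - i) := by
  have h : (j - i).val + i.val = j.val ∨ (j - i).val + i.val = j.val + 5 := by
    revert i j
    decide
  rcases h with h | h
  · have h1 : ((j - i).val : ℝ) + i.val = j.val := by exact_mod_cast h
    rw [kz, ← h1, add_sub_cancel_right]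
  · have h1 : ((j - i).val : ℝ) + i.val = j.val + 5 := by exact_mod_cast h
    rw [kz, ← ker5_add_five]
    congr 1
    linarith

theorem kz_zero (m : ZMod 5) : kz 0 m = if m = 0 then 1 else 0 := by
  split_ifs with h
  · simp only [h, kz, ker5, ZMod.val_zero, Nat.cast_zero, sub_zero, mul_zero, zero_div, cos_zero]
    norm_num
  · have h1 := sum_cos m.val (ZMod.val_pos.2 h) m.val_lt (-(4 * π * m.val / 5))
    rw [sum5 fun t => cos (-(4 * π * m.val / 5) + m.val * (2 * π / 5) * t)] at h1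
    rw [kz, sub_zero, ker5, ← zero_div 5, ← h1]
    generalize (m.val : ℝ) = x
    rw [show -(4 * π * x / 5) + x * (2 * π / 5) * 0 = -(4 * π * x / 5) by ring,
      show -(4 * π * x / 5) + x * (2 * π / 5) * 1 = -(2 * π * x / 5) by ring,
      show -(4 * π * x / 5) + x * (2 * π / 5) * 2 = 0 by ring,
      show -(4 * π * x / 5) + x * (2 * π / 5) * 3 = 2 * π * x / 5 by ring,
      show -(4 * π * x / 5) + x * (2 * π / 5) * 4 = 4 * π * x / 5 by ring, cos_neg, cos_neg,
      cos_zero]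
    ring

theorem kz_neg (s : ℝ) (m : ZMod 5) : kz (-s) m = kz s (-m) := by
  rw [← zero_sub m, ← ker5_eq, kz, ← ker5_neg]
  congr 1
  simp only [ZMod.val_zero, Nat.cast_zero]
  ring

theorem sum_cos' (m : ℕ) (h0 : 0 < m) (h5 : m < 5) (α : ℝ) :
    ∑ j : ZMod 5, cos (α - m * (2 * π / 5) * j.val) = 0 := by
  rw [← sum_cos m h0 h5 (-α)]
  exact Finset.sum_congr rfl fun j _ => by rw [← cos_neg, neg_sub, neg_add_eq_sub]

theorem cos_ker (a x : ℝ) : cos a * ker5 x = (cos a + cos (a + 2 * π * x / 5) +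
    cos (a - 2 * π * x / 5) + cos (a + 4 * π * x / 5) + cos (a - 4 * π * x / 5)) / 5 := by
  simp only [ker5, cos_add, cos_sub]
  ring

/-- the kernel reproduces the low frequencies -/
theorem repro (k : ℕ) (hk : k ≤ 2) (α y : ℝ) :
    ∑ j : ZMod 5, cos (α + k * (2 * π / 5) * j.val) * ker5 (j.val - y) =
      cos (α + k * (2 * π / 5) * y) := by
  have c5 : ∀ a : ℝ, ∑ _j : ZMod 5, a = 5 * a := fun a => by simp
  have e : ∀ (f g : ZMod 5 → ℝ) (c : ℝ), (∀ j, f j = g j) → ∑ j, cos (g j) = c →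
      ∑ j, cos (f j) = c := fun f g c h h' => by simp only [h, h']
  simp only [cos_ker, ← Finset.sum_div, Finset.sum_add_distrib]
  interval_cases k
  · rw [e _ _ _ (fun j => by push_cast; ring) (c5 (cos α)),
      e _ _ _ (fun j => by push_cast; ring) (sum_cos 1 one_pos (by norm_num) (α - 2 * π * y / 5)),
      e _ _ _ (fun j => by push_cast; ring) (sum_cos' 1 one_pos (by norm_num) (α + 2 * π * y / 5)),
      e _ _ _ (fun j => by push_cast; ring) (sum_cos 2 two_pos (by norm_num) (α - 4 * π * y / 5)),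
      e _ _ _ (fun j => by push_cast; ring) (sum_cos' 2 two_pos (by norm_num) (α + 4 * π * y / 5))]
    simp
  · rw [sum_cos 1 one_pos (by norm_num),
      e _ _ _ (fun j => by push_cast; ring) (sum_cos 2 two_pos (by norm_num) (α - 2 * π * y / 5)),
      e _ _ _ (fun j => by push_cast; ring) (c5 (cos (α + (1 : ℕ) * (2 * π / 5) * y))),
      e _ _ _ (fun j => by push_cast; ring) (sum_cos 3 three_pos (by norm_num) (α - 4 * π * y / 5)),
      e _ _ _ (fun j => by push_cast; ring) (sum_cos' 1 one_pos (by norm_num) (α + 4 * π * y / 5))]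
    ring
  · rw [sum_cos 2 two_pos (by norm_num),
      e _ _ _ (fun j => by push_cast; ring) (sum_cos 3 three_pos (by norm_num) (α - 2 * π * y / 5)),
      e _ _ _ (fun j => by push_cast; ring) (sum_cos 1 one_pos (by norm_num) (α + 2 * π * y / 5)),
      e _ _ _ (fun j => by push_cast; ring) (sum_cos 4 four_pos (by norm_num) (α - 4 * π * y / 5)),
      e _ _ _ (fun j => by push_cast; ring) (c5 (cos (α + (2 : ℕ) * (2 * π / 5) * y)))]
    ring

theorem sum_ker (y : ℝ) : ∑ j : ZMod 5, ker5 (j.val - y) = 1 := by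
  simpa using repro 0 (by norm_num) 0 y

theorem conv (x y : ℝ) : ∑ j : ZMod 5, ker5 (x - j.val) * ker5 (j.val - y) = ker5 (x - y) := by
  have h : ∀ t : ℝ, ker5 (x - t) = (1 + 2 * cos (-(2 * π * x / 5) + (1 : ℕ) * (2 * π / 5) * t) +
      2 * cos (-(4 * π * x / 5) + (2 : ℕ) * (2 * π / 5) * t)) / 5 := fun t => by
    rw [ker5_sub, ker5]
    congr 5 <;> push_cast <;> ring
  simp only [h, div_mul_eq_mul_div, ← Finset.sum_div, add_mul, mul_assoc 2 (cos _), one_mul,
    Finset.sum_add_distrib, ← Finset.mul_sum, sum_ker, repro 1 one_le_two, repro 2 le_rfl]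

variable {W : Type} [NormedAddCommGroup W] [NormedSpace ℝ W]

theorem rho_apply (s : ℝ) (x : X5 W) (j : ZMod 5) :
    rho s x j = ∑ i, ker5 ((j.val : ℝ) - (i.val : ℝ) - s) • x i := rfl

theorem rho_kz (s : ℝ) (x : X5 W) (j : ZMod 5) : rho s x j = ∑ i, kz s (j - i) • x i := by
  simp only [rho_apply, ker5_eq]

/-- a Fourier coefficient -/
noncomputable def fc (k : ℕ) (α : ℝ) (x : X5 W) : W :=
  ∑ j, cos (α + k * (2 * π / 5) * j.val) • x j

theorem fc_rho {k : ℕ} (hk : k ≤ 2) (α s : ℝ) (x : X5 W) :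
    fc k α (rho s x) = fc k (α + k * (2 * π / 5) * s) x := by
  simp only [fc, rho_apply, Finset.smul_sum, smul_smul]
  rw [Finset.sum_comm]
  refine Finset.sum_congr rfl fun i _ => ?_
  simp only [sub_sub, ← Finset.sum_smul, repro k hk]
  congr 2
  ring

theorem fc_add (k : ℕ) (α β : ℝ) (x : X5 W) :
    fc k (α + β) x = cos β • fc k α x + sin β • fc k (α + π / 2) x := by
  simp only [fc, Finset.smul_sum, smul_smul, ← Finset.sum_add_distrib, ← add_smul]
  refine Finset.sum_congr rfl fun j _ => ?_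
  rw [add_right_comm α β, add_right_comm α (π / 2), cos_add_pi_div_two, cos_add _ β]
  congr 1
  ring

theorem fc_pi (k : ℕ) (x : X5 W) : fc k (π / 2 + π / 2) x = -fc k 0 x := by
  simp only [fc, add_halves, add_comm π, cos_add_pi, zero_add, neg_smul, Finset.sum_neg_distrib]

theorem rho_fc (s : ℝ) (x : X5 W) (j : ZMod 5) : rho s x j = avg x +
    (2 / 5 : ℝ) • (fc 1 (2 * π / 5 * (s - j.val)) x + fc 2 (4 * π / 5 * (s - j.val)) x) := by
  change _ = (5 : ℝ)⁻¹ • ∑ j, x j + _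
  simp only [rho_apply, fc, Finset.smul_sum, smul_smul, ← Finset.sum_add_distrib, ← add_smul]
  refine Finset.sum_congr rfl fun i _ => ?_
  rw [← ker5_neg, ker5, show 2 * π * -((j.val : ℝ) - i.val - s) / 5 =
    2 * π / 5 * (s - j.val) + (1 : ℕ) * (2 * π / 5) * i.val by push_cast; ring,
    show 4 * π * -((j.val : ℝ) - i.val - s) / 5 =
    4 * π / 5 * (s - j.val) + (2 : ℕ) * (2 * π / 5) * i.val by push_cast; ring]
  congr 1
  ring

end Circ

open Circ

section Nrm

variable {W W' : Type} [NormedAddCommGroup W] [NormedSpace ℝ W] [NormedAddCommGroup W']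
  [NormedSpace ℝ W']

theorem rho_add (s s' : ℝ) (x : X5 W) : rho s (rho s' x) = rho (s + s') x := by
  funext j
  simp only [rho_apply, Finset.smul_sum, smul_smul]
  rw [Finset.sum_comm]
  refine Finset.sum_congr rfl fun i _ => ?_
  simp only [sub_right_comm (j.val : ℝ) _ s, sub_sub _ (i.val : ℝ), ← Finset.sum_smul, conv]
  congr 2
  ring

theorem rho_zero (x : X5 W) : rho 0 x = x := by
  funext j
  simp [rho_kz, kz_zero, sub_eq_zero]

theorem rho_one (x : X5 W) : rho 1 x = sh x := by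
  funext j
  have h : ∀ m : ZMod 5, kz 1 m = kz 0 (m - 1) := fun m => by
    rw [← ker5_eq, kz, sub_zero, show (1 : ZMod 5).val = 1 from rfl, Nat.cast_one]
  simp [rho_kz, h, kz_zero, sub_right_comm j _ 1, sub_eq_zero, sh]

theorem rho_two (x : X5 W) : rho 2 x = sh (sh x) := by
  rw [← rho_one, ← rho_one, rho_add, one_add_one_eq_two]

theorem rho_const (s : ℝ) (c : W) : rho s (fun _ => c) = fun _ => c := by
  funext j
  simp only [rho_apply, ← Finset.sum_smul, sub_right_comm (j.val : ℝ) _ s,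
    ker5_sub ((j.val : ℝ) - s), sum_ker, one_smul]

theorem rho_mapl (s : ℝ) (L : W →ₗ[ℝ] W') (x : X5 W) :
    rho s (fun j => L (x j)) = fun j => L (rho s x j) := by
  funext j
  simp only [rho_apply, map_sum, map_smul]

theorem rho_map (s : ℝ) (L : W →L[ℝ] W') (x : X5 W) :
    rho s (fun j => L (x j)) = fun j => L (rho s x j) := rho_mapl s (L : W →ₗ[ℝ] W') x

theorem rho_shift (s : ℝ) (x : X5 W) (k : ZMod 5) :
    rho s (fun j => x (j - k)) = fun j => rho s x (j - k) := by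
  funext j
  simp only [rho_kz]
  exact Fintype.sum_equiv (Equiv.subRight k) _ _ fun i => by simp

theorem rho_pi5 (ρ₀ : G5 →* (W ≃ₗᵢ[ℝ] W)) (g : G3) (s : ℝ) (x : X5 W) :
    rho s (pi5 ρ₀ g x) = pi5 ρ₀ g (rho s x) := by
  refine (rho_mapl s (ρ₀ g.1).toLinearEquiv.toLinearMap fun j => x (j - g.2.toAdd)).trans ?_
  rw [rho_shift]
  rfl

theorem rho_neg (s : ℝ) (x : X5 W) : rho (-s) (fun j => x (-j)) = fun j => rho s x (-j) := by
  funext j
  simp only [rho_kz, kz_neg]
  exact Fintype.sum_equiv (Equiv.neg _) _ _ fun i => by simp [neg_add_eq_sub]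

theorem avg_rho (s : ℝ) (x : X5 W) : avg (rho s x) = avg x := by
  change (5 : ℝ)⁻¹ • ∑ j, rho s x j = (5 : ℝ)⁻¹ • ∑ j, x j
  simp only [rho_apply]
  rw [Finset.sum_comm]
  simp only [sub_sub, ← Finset.sum_smul, sum_ker, one_smul]

theorem perp_rho (s : ℝ) (x : X5 W) : perp (rho s x) = rho s (perp x) := by
  change rho s x - (fun _ => avg (rho s x)) = rho s (x - fun _ => avg x)
  rw [map_sub, rho_const, avg_rho]

theorem continuous_rho : Continuous fun p : ℝ × X5 W => rho p.1 p.2 := by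
  refine continuous_pi fun j => ?_
  simp only [rho_apply, ker5]
  fun_prop

theorem norm_rho_le (s : ℝ) (x : X5 W) : ‖rho s x‖ ≤ 5 * ‖x‖ := by
  refine (pi_norm_le_iff_of_nonneg (by positivity)).2 fun j => ?_
  have h : ∑ _i : ZMod 5, ‖x‖ = 5 * ‖x‖ := by simp
  rw [← h, rho_apply]
  refine norm_sum_le_of_le _ fun i _ => ?_
  rw [norm_smul]
  exact (mul_le_of_le_one_left (norm_nonneg _) (abs_ker5 _)).trans (norm_le_pi_norm x i)

end Nrm

section Inn

variable {W : Type} [NormedAddCommGroup W] [InnerProductSpace ℝ W]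

theorem ip_adj (s : ℝ) (x y : X5 W) : ∑ j, ⟪rho s x j, y j⟫ = ∑ j, ⟪x j, rho (-s) y j⟫ := by
  simp only [rho_kz, sum_inner, inner_sum, real_inner_smul_left, real_inner_smul_right, kz_neg,
    neg_sub]
  exact Finset.sum_comm

theorem ip_rho (s : ℝ) (x y : X5 W) :
    ∑ j, inner ℝ (rho s x j) (rho s y j) = ∑ j, inner ℝ (x j) (y j) := by
  rw [ip_adj, rho_add, neg_add_cancel, rho_zero]

theorem sq_rho (s : ℝ) (x : X5 W) : ∑ j, ‖rho s x j‖ ^ 2 = ∑ j, ‖x j‖ ^ 2 := by
  simpa only [real_inner_self_eq_norm_sq] using ip_rho s x x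

theorem lin5 (s : ℝ) (hs : s ∈ Set.Icc (1 : ℝ) 2) (lam : ℝ) (hl : 0 < lam) (B : W →L[ℝ] W)
    (hB : ∀ a b, inner ℝ (B a) b = inner ℝ a (B b)) (hp : ∀ a, 0 ≤ inner ℝ (B a) a) (v : X5 W)
    (hv : avg v = 0) (h : lam • v = rho s fun j => B (v j)) : v = 0 := by
  have key : ∀ k : ℕ, 1 ≤ k → k ≤ 2 → ∀ α, fc k α v = 0 := fun k h1 h2 α => by
    have e : ∀ γ, lam • fc k γ v = cos (k * (2 * π / 5) * s) • B (fc k γ v) +
        sin (k * (2 * π / 5) * s) • B (fc k (γ + π / 2) v) := fun γ => by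
      have e1 : ∀ δ, fc k δ (fun j => B (v j)) = B (fc k δ v) := fun δ => by
        simp only [fc, map_sum, map_smul]
      rw [← e1, ← e1, ← fc_add, ← fc_rho h2, ← h]
      simp only [fc, Pi.smul_apply, Finset.smul_sum, smul_comm lam]
    have e1 := e 0
    have e2 := e (π / 2)
    rw [fc_pi] at e2
    rw [zero_add] at e1
    have k1 : (1 : ℝ) ≤ k := by exact_mod_cast h1
    have k2 : (k : ℝ) ≤ 2 := by exact_mod_cast h2
    have k3 : 1 ≤ k * s ∧ k * s ≤ 4 := ⟨by nlinarith [hs.1], by nlinarith [hs.1, hs.2]⟩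
    have hc : cos (k * (2 * π / 5) * s) ≠ 1 := fun hc => by
      have := (cos_eq_one_iff_of_lt_of_lt (by nlinarith [pi_pos, k3.1])
        (by nlinarith [pi_pos, k3.2])).1 hc
      nlinarith [pi_pos, k3.1]
    suffices hz : fc k 0 v = 0 ∧ fc k (π / 2) v = 0 by
      rw [← zero_add α, fc_add, zero_add, hz.1, hz.2, smul_zero, smul_zero, add_zero]
    generalize fc k 0 v = a at *
    generalize fc k (π / 2) v = b at *
    have s1 := sin_sq_add_cos_sq (k * (2 * π / 5) * s)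
    generalize cos (k * (2 * π / 5) * s) = c at *
    generalize sin (k * (2 * π / 5) * s) = σ at *
    have f1 := congrArg (fun w => ⟪w, a⟫) e1
    have f2 := congrArg (fun w => ⟪w, b⟫) e1
    have f3 := congrArg (fun w => ⟪w, a⟫) e2
    have f4 := congrArg (fun w => ⟪w, b⟫) e2
    simp only [inner_add_left, real_inner_smul_left, map_neg, inner_neg_left,
      real_inner_self_eq_norm_sq] at f1 f2 f3 f4
    have f5 : ⟪B b, a⟫ = ⟪B a, b⟫ := by rw [hB, real_inner_comm]
    rw [real_inner_comm] at f3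
    have f6 : c * (⟪B a, a⟫ + ⟪B b, b⟫) ≤ 0 := by
      by_cases h0 : σ = 0
      · have : (c - 1) * (c + 1) = 0 := by rw [h0] at s1; linarith
        have h3 := (mul_eq_zero.1 this).resolve_left (sub_ne_zero.2 hc)
        nlinarith [hp a, hp b]
      · have : σ * (⟪B a, a⟫ + ⟪B b, b⟫) = 0 := by rw [f5] at f3; linarith
        rw [(mul_eq_zero.1 this).resolve_left h0, mul_zero]
    have f7 : ‖a‖ ^ 2 + ‖b‖ ^ 2 ≤ 0 := by
      refine le_of_mul_le_mul_left ?_ hl
      rw [f5] at f1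
      linarith
    constructor <;> rw [← norm_eq_zero, ← sq_eq_zero_iff] <;>
      linarith [sq_nonneg ‖a‖, sq_nonneg ‖b‖]
  funext j
  rw [← rho_zero v, rho_fc, hv, key 1 le_rfl one_le_two, key 2 one_le_two le_rfl]
  simp

theorem ip_fc (k : ℕ) (β : ℝ) (v : X5 W) :
    ∑ j, ⟪fc k (β - k * (2 * π / 5) * j.val) v, v j⟫ =
      cos β * (‖fc k 0 v‖ ^ 2 + ‖fc k (π / 2) v‖ ^ 2) := by
  have h : ∀ j : ZMod 5, fc k (β - k * (2 * π / 5) * j.val) v =
      cos (0 + k * (2 * π / 5) * j.val) • fc k β v +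
        cos (π / 2 + k * (2 * π / 5) * j.val) • fc k (π / 2 + β) v := fun j => by
    rw [sub_eq_add_neg, fc_add, cos_neg, sin_neg, zero_add, add_comm (π / 2), add_comm (π / 2),
      cos_add_pi_div_two]
  simp only [h, inner_add_left, real_inner_smul_left, ← real_inner_smul_right,
    Finset.sum_add_distrib, ← inner_sum]
  change ⟪_, fc k 0 v⟫ + ⟪_, fc k (π / 2) v⟫ = _
  rw [fc_add, fc_pi, ← zero_add β, fc_add, zero_add, zero_add]
  simp only [inner_add_left, real_inner_smul_left, inner_neg_left, real_inner_self_eq_norm_sq]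
  rw [real_inner_comm]
  ring

theorem ip_self (s : ℝ) (v : X5 W) (hv : avg v = 0) : ∑ j, ⟪rho s v j, v j⟫ = 2 / 5 *
    (cos (2 * π / 5 * s) * (‖fc 1 0 v‖ ^ 2 + ‖fc 1 (π / 2) v‖ ^ 2) +
      cos (4 * π / 5 * s) * (‖fc 2 0 v‖ ^ 2 + ‖fc 2 (π / 2) v‖ ^ 2)) := by
  rw [← ip_fc, ← ip_fc, ← Finset.sum_add_distrib, Finset.mul_sum]
  refine Finset.sum_congr rfl fun j _ => ?_
  rw [rho_fc, hv, zero_add, real_inner_smul_left, inner_add_left]
  congr 4 <;> push_cast <;> ring

theorem qlin (s : ℝ) (hs : s = 1 ∨ s = 2) (v : X5 W) (hv : avg v = 0) :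
    ∑ j, inner ℝ (rho s v j) (v j) ≤ 1 / 2 * ∑ j, ‖v j‖ ^ 2 := by
  have h0 := ip_self 0 v hv
  simp only [rho_zero, real_inner_self_eq_norm_sq, mul_zero, cos_zero, one_mul] at h0
  have hc : ∀ t, π / 3 ≤ t → t ≤ π → cos t ≤ 1 / 2 := fun t h1 h2 =>
    (cos_le_cos_of_nonneg_of_le_pi (by positivity) h2 h1).trans_eq cos_pi_div_three
  have h1 : cos (2 * π / 5 * s) ≤ 1 / 2 := by
    rcases hs with rfl | rfl <;> exact hc _ (by linarith [pi_pos]) (by linarith [pi_pos])
  have h2 : cos (4 * π / 5 * s) ≤ 1 / 2 := by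
    rcases hs with rfl | rfl
    · exact hc _ (by linarith [pi_pos]) (by linarith [pi_pos])
    · rw [← cos_two_pi_sub]
      exact hc _ (by linarith [pi_pos]) (by linarith [pi_pos])
  rw [ip_self s v hv, h0]
  nlinarith [sq_nonneg ‖fc 1 0 v‖, sq_nonneg ‖fc 1 (π / 2) v‖, sq_nonneg ‖fc 2 0 v‖,
    sq_nonneg ‖fc 2 (π / 2) v‖]

end Inn

end Vale.Agent.P220Z.Rig
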