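import Vale.Agent.P220Z.Rig.Defs

/-!
# P220, Fuller maps: elementary facts, the zero set, properness over the parameter space
-/

open Set Topology

namespace Vale.Agent.P220Z.Rig

open Vale.Agent.P220Z.Def

theorem continuous_bfst : Continuous fun b : EB5 => b.fst := by fun_prop

theorem continuous_bsnd : Continuous fun b : EB5 => b.snd := by fun_prop

theorem isClosed_B5 : IsClosed B5 :=
  (isClosed_eq continuous_bfst.norm continuous_const).inter
    (isClosed_eq continuous_bsnd.norm continuous_const)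

theorem isCompact_B5 : IsCompact B5 := by
  refine Metric.isCompact_of_isClosed_isBounded isClosed_B5 ?_
  refine (Metric.isBounded_closedBall (x := (0 : EB5)) (r := 2)).subset fun b hb => ?_
  rw [mem_closedBall_zero_iff]
  have h := WithLp.prod_norm_sq_eq_of_L2 b
  rw [hb.1, hb.2] at h
  nlinarith [norm_nonneg b]

theorem B5_act (g : G5) (b : EB5) (hb : b ∈ B5) : β5 g b ∈ B5 := by
  refine ⟨?_, ?_⟩
  · show ‖rot 2 (om g.toAdd.1) b.fst‖ = 1
    rw [LinearIsometryEquiv.norm_map, hb.1]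
  · show ‖rot 9 (om g.toAdd.2) b.snd‖ = 1
    rw [LinearIsometryEquiv.norm_map, hb.2]

section Lin

variable {W : Type} [NormedAddCommGroup W] [NormedSpace ℝ W]

theorem avg_apply (x : X5 W) : avg x = (5 : ℝ)⁻¹ • ∑ j, x j := rfl

theorem perp_apply (x : X5 W) (j : ZMod 5) : perp x j = x j - avg x := rfl

theorem avg_const (c : W) : avg (fun _ : ZMod 5 => c) = c := by
  rw [avg_apply, Finset.sum_const, Finset.card_univ, ZMod.card, ← Nat.cast_smul_eq_nsmul ℝ,
    smul_smul]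
  norm_num

theorem perp_const (c : W) : perp (fun _ : ZMod 5 => c) = 0 := by
  ext j
  rw [perp_apply, avg_const, sub_self, Pi.zero_apply]

theorem perp_eq (x : X5 W) : perp x = x - fun _ => avg x := rfl

theorem avg_perp (x : X5 W) : avg (perp x) = 0 := by
  rw [perp_eq, map_sub, avg_const, sub_self]

theorem perp_perp (x : X5 W) : perp (perp x) = perp x := by
  ext j
  rw [perp_apply (perp x), avg_perp, sub_zero]

theorem continuous_avg : Continuous (avg : X5 W → W) := by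
  show Continuous fun x : X5 W => (5 : ℝ)⁻¹ • ∑ j, x j
  fun_prop

theorem continuous_perp : Continuous (perp : X5 W → X5 W) :=
  continuous_pi fun j => (continuous_apply j).sub continuous_avg

theorem norm_avg_le (x : X5 W) : ‖avg x‖ ≤ ‖x‖ := by
  have h : ‖∑ j, x j‖ ≤ 5 * ‖x‖ := by
    refine (norm_sum_le _ _).trans ?_
    refine (Finset.sum_le_sum fun j _ => norm_le_pi_norm x j).trans ?_
    rw [Finset.sum_const, Finset.card_univ, ZMod.card]
    simp
  rw [avg_apply, norm_smul, norm_inv, Real.norm_ofNat]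
  linarith

theorem norm_perp_le (x : X5 W) : ‖perp x‖ ≤ 2 * ‖x‖ := by
  refine (pi_norm_le_iff_of_nonneg (by positivity)).2 fun j => ?_
  rw [perp_apply]
  have h1 := norm_sub_le (x j) (avg x)
  have h2 := norm_le_pi_norm x j
  have h3 := norm_avg_le x
  linarith

theorem eq_zero_of_perp_avg {x : X5 W} (h1 : perp x = 0) (h2 : avg x = 0) : x = 0 := by
  ext j
  have h := congrFun h1 j
  rwa [perp_apply, h2, sub_zero] at h

theorem perp_eq_zero (x : X5 W) : perp x = 0 ↔ sh x = x := by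
  constructor
  · intro h
    have hx : ∀ j, x j = avg x := fun j => sub_eq_zero.1 (congrFun h j)
    ext j
    show x (j - 1) = x j
    rw [hx, hx j]
  · intro h
    have hx : ∀ j, x (j - 1) = x j := fun j => congrFun h j
    have h0 : ∀ n : ℕ, x n = x 0 := by
      intro n
      induction n with
      | zero => simp
      | succ n ih => rw [← hx, Nat.cast_succ, add_sub_cancel_right, ih]
    have hc : x = fun _ => x 0 := by
      ext j
      rw [← h0 j.val, ZMod.natCast_zmod_val]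
    rw [hc, perp_const]

variable (ρ0 : G5 →* (W ≃ₗᵢ[ℝ] W))

theorem avg_pi5 (g : G3) (x : X5 W) : avg (pi5 ρ0 g x) = ρ0 g.1 (avg x) := by
  rw [avg_apply, avg_apply, map_smul, map_sum]
  congr 1
  exact Fintype.sum_equiv (Equiv.subRight g.2.toAdd) _ _ fun j => rfl

theorem perp_pi5 (g : G3) (x : X5 W) : perp (pi5 ρ0 g x) = pi5 ρ0 g (perp x) := by
  ext j
  rw [perp_apply, avg_pi5, pi5_apply, pi5_apply, perp_apply, map_sub]

theorem norm_pi5 (g : G3) (x : X5 W) : ‖pi5 ρ0 g x‖ = ‖x‖ := by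
  refine le_antisymm ?_ ?_
  · refine (pi_norm_le_iff_of_nonneg (norm_nonneg _)).2 fun j => ?_
    rw [pi5_apply, LinearIsometryEquiv.norm_map]
    exact norm_le_pi_norm x _
  · refine (pi_norm_le_iff_of_nonneg (norm_nonneg _)).2 fun j => ?_
    have h := norm_le_pi_norm (pi5 ρ0 g x) (j + g.2.toAdd)
    rwa [pi5_apply, LinearIsometryEquiv.norm_map, add_sub_cancel_right] at h

theorem pi5_sig (x : X5 W) : pi5 ρ0 sig x = sh x := by
  ext j
  rw [pi5_apply]
  show ρ0 1 (x (j - 1)) = x (j - 1)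
  rw [map_one]
  rfl

theorem perp_pi5_ne {g : G3} {x : X5 W} (h : perp x ≠ 0) : perp (pi5 ρ0 g x) ≠ 0 := by
  rw [perp_pi5, ← norm_ne_zero_iff, norm_pi5, norm_ne_zero_iff]
  exact h

end Lin

section Zero

variable {W : Type} [NormedAddCommGroup W] [NormedSpace ℝ W] {P : Type}

theorem ful_eq_zero {d : ℝ} {g : P × EB5 × X5 W → X5 W} {w : P × EB5 × X5 W} (hd : 0 < d)
    (hw : perp w.2.2 ≠ 0) :
    ful d g w = 0 ↔ ∃ k > 0, k * ‖perp w.2.2‖ = d ∧ w.2.2 + k • perp w.2.2 = g w := by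
  have hp : 0 < ‖perp w.2.2‖ := norm_pos_iff.2 hw
  constructor
  · intro h
    refine ⟨d / ‖perp w.2.2‖, div_pos hd hp, div_mul_cancel₀ _ hp.ne', ?_⟩
    rw [← sub_eq_zero, ← h, ful]
    abel
  · rintro ⟨k, -, hk, h⟩
    rw [ful, ← h, ← hk, mul_div_cancel_right₀ _ hp.ne']
    abel

/-- An equivariant map sends the diagonal to the diagonal. -/
theorem perp_map_eq_zero (ρ0 : G5 →* (W ≃ₗᵢ[ℝ] W)) {g : P × EB5 × X5 W → X5 W}
    (he : ∀ (γ : G3) p b x, b ∈ B5 → g (p, β5 γ.1 b, pi5 ρ0 γ x) = pi5 ρ0 γ (g (p, b, x)))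
    {w : P × EB5 × X5 W} (hb : w.2.1 ∈ B5) (hw : perp w.2.2 = 0) : perp (g w) = 0 := by
  have h := he sig w.1 w.2.1 w.2.2 hb
  have h1 : β5 sig.1 w.2.1 = w.2.1 := by
    show β5 1 w.2.1 = w.2.1
    rw [map_one]
    rfl
  rw [h1, pi5_sig, pi5_sig, (perp_eq_zero _).1 hw] at h
  exact (perp_eq_zero _).2 h.symm

theorem isPF_ful [FiniteDimensional ℝ W] [TopologicalSpace P] (ρ0 : G5 →* (W ≃ₗᵢ[ℝ] W)) (d : ℝ)
    (hd : 0 < d) (O O1 : Set (P × EB5 × X5 W)) (g : P × EB5 × X5 W → X5 W)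
    (hg : ContinuousOn g {w : P × EB5 × X5 W | w.2.1 ∈ B5})
    (he : ∀ (γ : G3) p b x, b ∈ B5 → g (p, β5 γ.1 b, pi5 ρ0 γ x) = pi5 ρ0 γ (g (p, b, x)))
    (hO : ∀ w ∈ O, w ∈ {w : P × EB5 × X5 W | w.2.1 ∈ B5} →
      O ∈ 𝓝[{w : P × EB5 × X5 W | w.2.1 ∈ B5}] w)
    (hm : ∀ (γ : G3) p b x, b ∈ B5 → (p, b, x) ∈ O → (p, β5 γ.1 b, pi5 ρ0 γ x) ∈ O)
    (h1 : O ⊆ O1) (hc : IsClosed (O1 ∩ {w : P × EB5 × X5 W | w.2.1 ∈ B5}))
    (hz : ∀ K : Set P, IsCompact K → ∃ R : ℝ, ∀ w ∈ O1,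
      w ∈ {w : P × EB5 × X5 W | w.2.1 ∈ B5} → w.1 ∈ K → ∀ k > (0 : ℝ), k * ‖perp w.2.2‖ = d →
        w.2.2 + k • perp w.2.2 = g w → w ∈ O ∧ ‖w.2.2‖ ≤ R) :
    IsPF (pi5 ρ0) (fdom O) (ful d g) (fun _ => 0) := by
  have hx : Continuous fun w : P × EB5 × X5 W => w.2.2 := by fun_prop
  have hp : Continuous fun w : P × EB5 × X5 W => perp w.2.2 := continuous_perp.comp hx
  refine ⟨fun w hw => hw.1, fun w hw => ?_, ?_, continuousOn_const, fun γ p b z h => ?_,
    fun γ p b z h => ?_, fun γ p b z _ => (mul_zero _).symm, fun w hw h => ?_, fun K hK => ?_⟩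
  · have h2 : {v : P × EB5 × X5 W | perp v.2.2 ≠ 0} ∈ 𝓝 w :=
      (isOpen_ne_fun hp continuous_const).mem_nhds hw.2.2
    filter_upwards [self_mem_nhdsWithin, hO w hw.2.1 hw.1, mem_nhdsWithin_of_mem_nhds h2] with v
      h3 h4 h5 using ⟨h3, h4, h5⟩
  · exact (hx.continuousOn.sub (hg.mono fun w hw => hw.1)).add
      ((continuousOn_const.div hp.norm.continuousOn fun w hw =>
        norm_ne_zero_iff.2 hw.2.2).smul hp.continuousOn)
  · exact ⟨B5_act _ _ h.1, hm γ p b z h.1 h.2.1, perp_pi5_ne ρ0 h.2.2⟩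
  · simp only [ful]
    rw [he γ p b z h.1, perp_pi5, norm_pi5, map_add, map_sub, map_smul]
  · rw [pi5_sig] at h
    exact hw.2.2 ((perp_eq_zero _).2 h)
  · obtain ⟨R, hR⟩ := hz K hK
    have hu : ContinuousOn (fun w : P × EB5 × X5 W => w.2.2 - g w)
        (O1 ∩ {w : P × EB5 × X5 W | w.2.1 ∈ B5}) :=
      hx.continuousOn.sub (hg.mono inter_subset_right)
    have hF : ContinuousOn (fun w : P × EB5 × X5 W =>
        (‖perp w.2.2‖ • (w.2.2 - g w) + d • perp w.2.2, ‖w.2.2 - g w‖, avg (w.2.2 - g w)))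
        (O1 ∩ {w : P × EB5 × X5 W | w.2.1 ∈ B5}) :=
      ((hp.norm.continuousOn.smul hu).add (hp.continuousOn.const_smul d)).prodMk
        (hu.norm.prodMk (continuous_avg.comp_continuousOn hu))
    have hcl := hF.preimage_isClosed_of_isClosed hc (isClosed_singleton (x := (0, d, 0)))
    have hcp := (hK.prod (isCompact_B5.prod (isCompact_closedBall (0 : X5 W) R))).inter_right hcl
    convert hcp using 1
    ext w
    constructor
    · rintro ⟨hw1, hw2, hw3, -⟩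
      obtain ⟨k, hk, hk1, hk2⟩ := (ful_eq_zero hd hw2.2.2).1 hw3
      have h3 := hR w (h1 hw2.2.1) hw2.1 hw1 k hk hk1 hk2
      have h4 : w.2.2 - g w = -(k • perp w.2.2) := by
        rw [← hk2]
        abel
      refine ⟨⟨hw1, hw2.1, mem_closedBall_zero_iff.2 h3.2⟩, ⟨h1 hw2.2.1, hw2.1⟩, ?_⟩
      simp only [mem_preimage, mem_singleton_iff, Prod.mk.injEq]
      rw [h4]
      refine ⟨?_, ?_, ?_⟩
      · rw [smul_neg, smul_smul, mul_comm, hk1, neg_add_cancel]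
      · rw [norm_neg, norm_smul, Real.norm_of_nonneg hk.le, hk1]
      · rw [map_neg, map_smul, avg_perp, smul_zero, neg_zero]
    · rintro ⟨⟨hw1, hb, -⟩, ⟨hw2, -⟩, hw3⟩
      simp only [mem_preimage, mem_singleton_iff, Prod.mk.injEq] at hw3
      obtain ⟨e1, e2, e3⟩ := hw3
      have hne : perp w.2.2 ≠ 0 := by
        intro h0
        have h5 : perp (w.2.2 - g w) = 0 := by
          rw [map_sub, h0, perp_map_eq_zero ρ0 he hb h0, sub_zero]
        rw [eq_zero_of_perp_avg h5 e3, norm_zero] at e2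
        exact hd.ne e2
      have hpos : 0 < ‖perp w.2.2‖ := norm_pos_iff.2 hne
      have h6 : ful d g w = 0 := by
        have h7 : ‖perp w.2.2‖ • ful d g w = 0 := by
          rw [← e1, ful, smul_add, smul_smul, mul_div_cancel₀ _ hpos.ne']
        exact (smul_eq_zero.1 h7).resolve_left hpos.ne'
      obtain ⟨k, hk, hk1, hk2⟩ := (ful_eq_zero hd hne).1 h6
      exact ⟨hw1, ⟨hb, (hR w hw2 hb hw1 k hk hk1 hk2).1, hne⟩, h6, 0, 0, le_rfl, by simp⟩

end Zero

theorem small_d {T : Type} [TopologicalSpace T] {E : Type} [NormedAddCommGroup E] (C : Set T)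
    (hC : IsCompact C) (h : T → E) (hh : ContinuousOn h C) (N : Set T)
    (hN : ∀ x ∈ C, h x = 0 → N ∈ 𝓝[C] x) : ∃ d0 > (0 : ℝ), ∀ x ∈ C, ‖h x‖ ≤ d0 → x ∈ N := by
  have key : ∀ x ∈ C, ∃ t ∈ 𝓝[C] x, ∃ d0 > (0 : ℝ), ∀ y ∈ t, ‖h y‖ ≤ d0 → y ∈ N := by
    intro x hx
    by_cases h0 : h x = 0
    · exact ⟨N, hN x hx h0, 1, one_pos, fun y hy _ => hy⟩
    · have hp : 0 < ‖h x‖ := norm_pos_iff.2 h0
      have h2 : ∀ᶠ y in 𝓝[C] x, ‖h x‖ / 2 < ‖h y‖ :=
        (hh x hx).norm.eventually (lt_mem_nhds (half_lt_self hp))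
      exact ⟨_, h2, ‖h x‖ / 2, half_pos hp, fun y hy hy' => absurd hy (not_lt.2 hy')⟩
  refine hC.induction_on (p := fun t => ∃ d0 > (0 : ℝ), ∀ y ∈ t, ‖h y‖ ≤ d0 → y ∈ N)
    ⟨1, one_pos, fun y hy => hy.elim⟩ ?_ ?_ key
  · rintro s t hst ⟨d0, hd0, H⟩
    exact ⟨d0, hd0, fun y hy => H y (hst hy)⟩
  · rintro s t ⟨d1, hd1, H1⟩ ⟨d2, hd2, H2⟩
    refine ⟨min d1 d2, lt_min hd1 hd2, fun y hy hy' => ?_⟩
    rcases hy with hy | hy
    · exact H1 y hy (hy'.trans (min_le_left _ _))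
    · exact H2 y hy (hy'.trans (min_le_right _ _))

end Vale.Agent.P220Z.Rig
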