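import Vale.Agent.P220Z.Rig.Defs

/-!
# P220, counts along paths: homotopy, excision, concatenation, the cocycle of segments
-/

open Set Topology
open scoped unitInterval

namespace Vale.Agent.P220Z.Rig

open Vale.Agent.P220Z.Def

variable {V : Type} [NormedAddCommGroup V] [NormedSpace ℝ V] {P P' : Type} [TopologicalSpace P]
  [TopologicalSpace P'] {π : G3 →* (V →L[ℝ] V)} {O : Set (P × EB5 × V)} {Φ : P × EB5 × V → V}
  {ε : P × EB5 × V → ℂ}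

theorem IsPF.comap [T2Space P] (h : IsPF π O Φ ε) {f : P' → P} (hf : Continuous f) :
    IsPF π {w : P' × EB5 × V | (f w.1, w.2) ∈ O} (fun w => Φ (f w.1, w.2))
      fun w => ε (f w.1, w.2) := by
  have hF : Continuous fun w : P' × EB5 × V => (f w.1, w.2) :=
    (hf.comp continuous_fst).prodMk continuous_snd
  refine ⟨fun w hw => h.sub (f w.1, w.2) hw, fun w hw => ?_,
    h.cont.comp hF.continuousOn fun _ hw => hw,
    h.conte.comp hF.continuousOn fun _ hw => hw, fun γ p b z => h.mem γ (f p) b z,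
    fun γ p b z => h.eq γ (f p) b z, fun γ p b z => h.eqe γ (f p) b z,
    fun w hw => h.free (f w.1, w.2) hw, fun K hK => ?_⟩
  · obtain ⟨A, hA, hw', hs⟩ := mem_nhdsWithin.1 (h.op (f w.1, w.2) hw)
    exact mem_nhdsWithin.2 ⟨_, hA.preimage hF, hw', fun v hv => hs (a := (f v.1, v.2)) hv⟩
  · have hC := h.cpt _ (hK.image hf)
    have := (hK.prod (hC.image continuous_snd)).inter_right (hC.isClosed.preimage hF)
    refine Eq.subst (motive := IsCompact) (Set.ext fun w => ?_) this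
    exact ⟨fun hw => ⟨hw.1.1, hw.2.2⟩,
      fun hw => ⟨⟨hw.1, (f w.1, w.2), ⟨⟨_, hw.1, rfl⟩, hw.2⟩, rfl⟩, ⟨_, hw.1, rfl⟩, hw.2⟩⟩

theorem IsPF.restr (h : IsPF π O Φ ε) {A K : Set P} (hA : IsOpen A) (hK : IsCompact K)
    (hAK : A ⊆ K) (hb : ∀ p ∈ K, p ∉ A → Adm O Φ ε p) : IsPr π {w | w.1 ∈ A ∧ w ∈ O} Φ ε := by
  refine ⟨fun w hw => h.sub _ hw.2, fun w hw => ?_, h.cont.mono fun _ hw => hw.2,
    h.conte.mono fun _ hw => hw.2, fun γ p b z hw => ⟨hw.1, h.mem γ _ b z hw.2⟩,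
    fun γ p b z hw => h.eq γ _ b z hw.2, fun γ p b z hw => h.eqe γ _ b z hw.2,
    fun w hw => h.free _ hw.2, ?_⟩
  · exact Filter.inter_mem
      (mem_nhdsWithin_of_mem_nhds ((hA.preimage continuous_fst).mem_nhds hw.1)) (h.op _ hw.2)
  · convert h.cpt K hK using 1
    ext w
    refine ⟨fun hw => ⟨hAK hw.1.1, hw.1.2, hw.2⟩, fun hw => ⟨⟨?_, hw.2.1⟩, hw.2.2⟩⟩
    by_contra hn
    exact hb _ hw.1 hn w.2.1 w.2.2 hw.2.1 hw.2.2.1 hw.2.2.2

theorem IsPF.isPr [T2Space P] (h : IsPF π O Φ ε) {γ : ℝ → P} (hγ : Continuous γ) {a b : ℝ}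
    (h0 : Adm O Φ ε (γ a)) (h1 : Adm O Φ ε (γ b)) :
    IsPr π {w : ℝ × EB5 × V | w.1 ∈ Ioo a b ∧ (γ w.1, w.2) ∈ O} (fun w => Φ (γ w.1, w.2))
      fun w => ε (γ w.1, w.2) := by
  refine (h.comap hγ).restr isOpen_Ioo isCompact_Icc Ioo_subset_Icc_self fun p hp hn => ?_
  rcases eq_endpoints_or_mem_Ioo_of_mem_Icc hp with rfl | rfl | h'
  exacts [h0, h1, (hn h').elim]

variable [FiniteDimensional ℝ V] [T2Space P] {n : NFun}

/-- homotopy of paths with admissible ends -/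
theorem pcnt_hom (hn : IsN n) (h : IsPF π O Φ ε) {H : ℝ × ℝ → P} (hH : Continuous H)
    (h0 : ∀ s ∈ Icc (0 : ℝ) 1, Adm O Φ ε (H (s, 0)))
    (h1 : ∀ s ∈ Icc (0 : ℝ) 1, Adm O Φ ε (H (s, 1))) :
    pcnt n π O Φ ε (fun τ => H (0, τ)) = pcnt n π O Φ ε fun τ => H (1, τ) := by
  have hf : Continuous fun q : I × ℝ => H (q.1, q.2) := by fun_prop
  refine hn.hom V π _ _ _ ((h.comap hf).restr (A := {q | q.2 ∈ Ioo (0 : ℝ) 1})
    (K := univ ×ˢ Icc (0 : ℝ) 1) (isOpen_Ioo.preimage continuous_snd)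
    (isCompact_univ.prod isCompact_Icc) (fun q hq => ⟨trivial, Ioo_subset_Icc_self hq⟩)
    fun q hq hn => ?_)
  obtain ⟨s, τ⟩ := q
  rcases eq_endpoints_or_mem_Ioo_of_mem_Icc hq.2 with h' | h' | h'
  · obtain rfl : τ = 0 := h'
    exact h0 s s.2
  · obtain rfl : τ = 1 := h'
    exact h1 s s.2
  · exact (hn h').elim

/-- an admissible path counts zero -/
theorem pcnt_zero (hn : IsN n) (h : IsPF π O Φ ε) {γ : ℝ → P} (hγ : Continuous γ)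
    (ha : ∀ τ ∈ Icc (0 : ℝ) 1, Adm O Φ ε (γ τ)) : pcnt n π O Φ ε γ = 0 :=
  hn.zero V π _ _ _ (fun _ => 0)
    (h.isPr hγ (ha 0 ⟨le_rfl, zero_le_one⟩) (ha 1 ⟨zero_le_one, le_rfl⟩)) continuousOn_const
    (fun _ _ _ _ _ => (smul_zero _).symm)
    fun w hw h1 h2 => (ha _ (Ioo_subset_Icc_self hw.1) w.2.1 w.2.2 hw.2 h1 h2).elim

/-- excision and congruence -/
theorem pcnt_exc [T2Space P'] (hn : IsN n) (h : IsPF π O Φ ε) {O' : Set (P' × EB5 × V)}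
    {Φ' : P' × EB5 × V → V} {ε' : P' × EB5 × V → ℂ} (h' : IsPF π O' Φ' ε') {γ : ℝ → P}
    {γ' : ℝ → P'} (hγ : Continuous γ) (hγ' : Continuous γ') (h0 : Adm O Φ ε (γ 0))
    (h1 : Adm O Φ ε (γ 1)) (h0' : Adm O' Φ' ε' (γ' 0)) (h1' : Adm O' Φ' ε' (γ' 1))
    (hs : ∀ τ ∈ Ioo (0 : ℝ) 1, ∀ y, (γ' τ, y) ∈ O' →
      (γ τ, y) ∈ O ∧ Φ' (γ' τ, y) = Φ (γ τ, y) ∧ ε' (γ' τ, y) = ε (γ τ, y))
    (hz : ∀ τ ∈ Ioo (0 : ℝ) 1, ∀ y, (γ τ, y) ∈ O → Φ (γ τ, y) = 0 → ε (γ τ, y) ∈ RR →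
      (γ' τ, y) ∈ O') :
    pcnt n π O' Φ' ε' γ' = pcnt n π O Φ ε γ :=
  hn.exc V π _ _ _ _ _ _ (h.isPr hγ h0 h1) (h'.isPr hγ' h0' h1')
    (fun _ hw => ⟨hw.1, (hs _ hw.1 _ hw.2).1⟩) (fun _ hw e1 e2 => ⟨hw.1, hz _ hw.1 _ hw.2 e1 e2⟩)
    fun _ hw => (hs _ hw.1 _ hw.2).2

theorem pcnt_congr (hn : IsN n) (h : IsPF π O Φ ε) {γ γ' : ℝ → P} (hγ : Continuous γ)
    (hγ' : Continuous γ') (h0 : Adm O Φ ε (γ 0)) (h1 : Adm O Φ ε (γ 1))
    (e : ∀ τ ∈ Icc (0 : ℝ) 1, γ' τ = γ τ) : pcnt n π O Φ ε γ' = pcnt n π O Φ ε γ :=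
  pcnt_exc hn h h hγ hγ' h0 h1 (by rwa [e 0 ⟨le_rfl, zero_le_one⟩])
    (by rwa [e 1 ⟨zero_le_one, le_rfl⟩])
    (fun τ hτ y hy => by rw [e τ (Ioo_subset_Icc_self hτ)] at hy ⊢; exact ⟨hy, rfl, rfl⟩)
    fun τ hτ y hy _ _ => by rwa [e τ (Ioo_subset_Icc_self hτ)]

theorem sg5_pos {c : ℝ} (hc : 0 < c) : sg5 c = 1 := by simp [sg5, sign_pos hc]

theorem sg5_neg {c : ℝ} (hc : c < 0) : sg5 c = -1 := by simp [sg5, sign_neg hc]

theorem pcnt_Ioo (hn : IsN n) (h : IsPF π O Φ ε) {γ : ℝ → P} (hγ : Continuous γ) {a b : ℝ}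
    (hab : a < b) (h0 : Adm O Φ ε (γ a)) (h1 : Adm O Φ ε (γ b)) :
    pcnt n π O Φ ε (fun τ => γ ((b - a) * τ + a)) =
      n V π {w : ℝ × EB5 × V | w.1 ∈ Ioo a b ∧ (γ w.1, w.2) ∈ O} (fun w => Φ (γ w.1, w.2))
        fun w => ε (γ w.1, w.2) := by
  have hc := sub_pos.2 hab
  have := hn.time V π _ _ _ (b - a) a hc.ne' (h.isPr hγ h0 h1)
  rw [sg5_pos hc, one_mul] at this
  rw [← this, pcnt]
  congr 1
  ext w
  refine and_congr_left fun _ => ⟨fun hw => ⟨?_, ?_⟩, fun hw => ⟨?_, ?_⟩⟩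
  · nlinarith [hw.1]
  · nlinarith [hw.2]
  · have : a < (b - a) * w.1 + a := hw.1
    by_contra hh
    nlinarith [not_lt.1 hh]
  · have : (b - a) * w.1 + a < b := hw.2
    by_contra hh
    nlinarith [not_lt.1 hh]

/-- concatenation at an admissible point -/
theorem pcnt_concat (hn : IsN n) (h : IsPF π O Φ ε) {γ : ℝ → P} (hγ : Continuous γ) {m : ℝ}
    (hm : m ∈ Ioo (0 : ℝ) 1) (h0 : Adm O Φ ε (γ 0)) (ha : Adm O Φ ε (γ m))
    (h1 : Adm O Φ ε (γ 1)) :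
    pcnt n π O Φ ε γ = pcnt n π O Φ ε (fun τ => γ ((m - 0) * τ + 0)) +
      pcnt n π O Φ ε fun τ => γ ((1 - m) * τ + m) := by
  rw [pcnt_Ioo hn h hγ hm.1 h0 ha, pcnt_Ioo hn h hγ hm.2 ha h1,
    ← hn.add V π _ _ _ _ (h.isPr hγ h0 ha) (h.isPr hγ ha h1)
      (disjoint_left.2 fun w h1 h2 => lt_asymm h1.1.2 h2.1.1)]
  have hA : IsPr π {w : ℝ × EB5 × V | w.1 ∈ Ioo 0 m ∪ Ioo m 1 ∧ (γ w.1, w.2) ∈ O}
      (fun w => Φ (γ w.1, w.2)) fun w => ε (γ w.1, w.2) := by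
    refine (h.comap hγ).restr (isOpen_Ioo.union isOpen_Ioo) (isCompact_Icc (a := 0) (b := 1))
      (union_subset (fun x hx => ⟨hx.1.le, (hx.2.trans hm.2).le⟩)
        fun x hx => ⟨(hm.1.trans hx.1).le, hx.2.le⟩) fun p hp hn => ?_
    rcases eq_endpoints_or_mem_Ioo_of_mem_Icc hp with rfl | rfl | h'
    · exact h0
    · exact h1
    · rcases lt_trichotomy p m with h2 | rfl | h2
      exacts [(hn (Or.inl ⟨h'.1, h2⟩)).elim, ha, (hn (Or.inr ⟨h2, h'.2⟩)).elim]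
  have e := hn.exc V π _ _ _ _ _ _ (h.isPr hγ h0 h1) hA
    (fun w hw => ⟨hw.1.elim (fun hx => ⟨hx.1, hx.2.trans hm.2⟩) fun hx => ⟨hm.1.trans hx.1, hx.2⟩,
      hw.2⟩) (fun w hw e1 e2 => ⟨?_, hw.2⟩) fun w _ => ⟨rfl, rfl⟩
  · rw [pcnt, ← e]
    congr 1
    ext w
    exact or_and_right
  · rcases lt_trichotomy w.1 m with h2 | h2 | h2
    · exact Or.inl ⟨hw.1.1, h2⟩
    · exact ((h2 ▸ ha : Adm O Φ ε (γ w.1)) w.2.1 w.2.2 hw.2 e1 e2).elim
    · exact Or.inr ⟨h2, hw.1.2⟩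

/-- reversal -/
theorem pcnt_rev (hn : IsN n) (h : IsPF π O Φ ε) {γ : ℝ → P} (hγ : Continuous γ)
    (h0 : Adm O Φ ε (γ 0)) (h1 : Adm O Φ ε (γ 1)) :
    pcnt n π O Φ ε (fun τ => γ (-1 * τ + 1)) = -pcnt n π O Φ ε γ := by
  have := hn.time V π _ _ _ (-1) 1 (by norm_num) (h.isPr hγ h0 h1)
  rw [sg5_neg (by norm_num), neg_one_mul] at this
  rw [pcnt, pcnt, ← this]
  congr 1
  ext w
  refine and_congr_left fun _ => ⟨fun hw => ⟨?_, ?_⟩, fun hw => ⟨?_, ?_⟩⟩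
  · linarith [hw.2]
  · linarith [hw.1]
  · have : -1 * w.1 + 1 < 1 := hw.2
    linarith
  · have : 0 < -1 * w.1 + 1 := hw.1
    linarith

section Seg

variable {Q : Type} [NormedAddCommGroup Q] [NormedSpace ℝ Q] {O : Set (Q × EB5 × V)}
  {Φ : Q × EB5 × V → V} {ε : Q × EB5 × V → ℂ}

/-- the segment from `p` to `q` -/
def seg (p q : Q) (τ : ℝ) : Q := p + τ • (q - p)

theorem seg_cont (p q : Q) : Continuous (seg p q) := by
  unfold seg
  fun_prop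

@[simp] theorem seg_zero (p q : Q) : seg p q 0 = p := by simp [seg]

@[simp] theorem seg_one (p q : Q) : seg p q 1 = q := by simp [seg]

/-- in a vector space the count depends only on the ends -/
theorem pcnt_seg (hn : IsN n) (h : IsPF π O Φ ε) {γ : ℝ → Q} (hγ : Continuous γ)
    (h0 : Adm O Φ ε (γ 0)) (h1 : Adm O Φ ε (γ 1)) :
    pcnt n π O Φ ε γ = pcnt n π O Φ ε (seg (γ 0) (γ 1)) := by
  have := pcnt_hom hn h (H := fun y => seg (γ y.2) (seg (γ 0) (γ 1) y.2) y.1)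
    (by unfold seg; fun_prop) (fun s _ => by simpa [seg] using h0)
    fun s _ => by simpa [seg] using h1
  simpa using this

theorem seg_add (hn : IsN n) (h : IsPF π O Φ ε) {p q r : Q} (hp : Adm O Φ ε p) (hq : Adm O Φ ε q)
    (hr : Adm O Φ ε r) :
    pcnt n π O Φ ε (seg p r) = pcnt n π O Φ ε (seg p q) + pcnt n π O Φ ε (seg q r) := by
  let γ : ℝ → Q := fun τ => seg p r τ + (4 * τ * (1 - τ)) • (q - seg p r (1 / 2))
  have hγ : Continuous γ := by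
    unfold γ seg
    fun_prop
  have e0 : γ 0 = p := by simp [γ]
  have e1 : γ 1 = r := by simp [γ]
  have em : γ (1 / 2) = q := by
    have : (4 * (1 / 2) * (1 - 1 / 2) : ℝ) = 1 := by norm_num
    simp only [γ, this, one_smul, add_sub_cancel]
  have a := pcnt_seg hn h hγ (e0 ▸ hp) (e1 ▸ hr)
  have b := pcnt_concat hn h hγ (m := 1 / 2) (by norm_num) (e0 ▸ hp) (em ▸ hq) (e1 ▸ hr)
  have u0 : ((1 / 2 - 0) * 0 + 0 : ℝ) = 0 := by norm_num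
  have u1 : ((1 / 2 - 0) * 1 + 0 : ℝ) = 1 / 2 := by norm_num
  have u2 : ((1 - 1 / 2) * 0 + 1 / 2 : ℝ) = 1 / 2 := by norm_num
  have u3 : ((1 - 1 / 2) * 1 + 1 / 2 : ℝ) = 1 := by norm_num
  have c := pcnt_seg hn h (γ := fun τ => γ ((1 / 2 - 0) * τ + 0)) (by fun_prop)
    (by rw [u0, e0]; exact hp) (by rw [u1, em]; exact hq)
  have d := pcnt_seg hn h (γ := fun τ => γ ((1 - 1 / 2) * τ + 1 / 2)) (by fun_prop)
    (by rw [u2, em]; exact hq) (by rw [u3, e1]; exact hr)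
  rw [u0, u1, e0, em] at c
  rw [u2, u3, em, e1] at d
  rw [e0, e1] at a
  rw [← a, b, c, d]

theorem seg_self (hn : IsN n) (h : IsPF π O Φ ε) {p : Q} (hp : Adm O Φ ε p) :
    pcnt n π O Φ ε (seg p p) = 0 :=
  pcnt_zero hn h (seg_cont _ _) fun _ _ => by simpa [seg] using hp

end Seg

/-- The algebra of Theorem A: a family over the plane that is invariant under the translation by
`(1, -1)` and symmetric under a reflection counts zero from `(1, 0)` to `(2, 0)`. -/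
theorem plane_zero (hn : IsN n) {O : Set ((ℝ × ℝ) × EB5 × V)} {Φ : (ℝ × ℝ) × EB5 × V → V}
    (h : IsPF π O Φ fun _ => 0) (T : V ≃L[ℝ] V)
    (hT : ∀ (γ : G3) z, T (π γ z) = π (γ.1, γ.2⁻¹) (T z))
    (ht : ∀ p y, ((p + (1, -1), y) ∈ O ↔ (p, y) ∈ O) ∧ Φ (p + (1, -1), y) = Φ (p, y))
    (hr : ∀ p b z, ((p, b, T z) ∈ O ↔ (-p, b, z) ∈ O) ∧ Φ (p, b, T z) = T (Φ (-p, b, z)))
    (ha : ∀ s ∈ Icc (-1 : ℝ) 0, Adm O Φ (fun _ => 0) (2, s)) :
    pcnt n π O Φ (fun _ => 0) (seg (1, 0) (2, 0)) = 0 := by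
  have aT : ∀ p, Adm O Φ (fun _ => 0) (p + (1, -1)) ↔ Adm O Φ (fun _ => 0) p := fun p =>
    forall₂_congr fun b z => by rw [(ht p _).1, (ht p _).2]
  have aR : ∀ p, Adm O Φ (fun _ => 0) p → Adm O Φ (fun _ => 0) (-p) := fun p hp b z h1 h2 =>
    hp b (T z) ((hr p b z).1.2 h1) (by rw [(hr p b z).2, h2, map_zero])
  have cT : ∀ p q, pcnt n π O Φ (fun _ => 0) (seg (p + (1, -1)) (q + (1, -1))) =
      pcnt n π O Φ (fun _ => 0) (seg p q) := by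
    intro p q
    have e : ∀ τ, seg (p + (1, -1)) (q + (1, -1)) τ = seg p q τ + (1, -1) := fun τ => by
      simp only [seg, add_sub_add_right_eq_sub]
      abel
    unfold pcnt
    simp only [e, (ht _ _).1, (ht _ _).2]
  have cR : ∀ p q, Adm O Φ (fun _ => 0) p → Adm O Φ (fun _ => 0) q →
      pcnt n π O Φ (fun _ => 0) (seg (-p) (-q)) = pcnt n π O Φ (fun _ => 0) (seg p q) := by
    intro p q hp hq
    have e : ∀ τ, seg (-p) (-q) τ = -seg p q τ := fun τ => by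
      simp only [seg, smul_sub, smul_neg]
      abel
    have := hn.refl V V π π _ _ _ T hT
      (h.isPr (a := 0) (b := 1) (seg_cont p q) (by simpa using hp) (by simpa using hq))
    unfold pcnt
    rw [← this]
    simp only [e, mem_ofPred_eq, (hr _ _ _).1, (hr _ _ _).2, ContinuousLinearEquiv.symm_apply_apply,
      map_zero]
  have h20 := ha 0 (by norm_num)
  have h21 := ha (-1) (by norm_num)
  have h10 : Adm O Φ (fun _ => 0) (1, 0) := (aT _).1 (by norm_num; exact h21)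
  have hm : Adm O Φ (fun _ => 0) (-1, 0) := by simpa using aR _ h10
  have h01 : Adm O Φ (fun _ => 0) (0, -1) := by simpa using (aT _).2 hm
  have z1 : pcnt n π O Φ (fun _ => 0) (seg (2, -1) (2, 0)) = 0 :=
    pcnt_zero hn h (seg_cont _ _) fun τ hτ => by
      have : seg ((2, -1) : ℝ × ℝ) (2, 0) τ = (2, -1 + τ) := by simp [seg]
      rw [this]
      exact ha _ ⟨by linarith [hτ.1], by linarith [hτ.2]⟩
  have e1 := seg_add hn h h10 h21 h20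
  have e2 := seg_add hn h h10 hm h21
  have e3 := seg_add hn h hm h01 h21
  have e4 := seg_add hn h h10 hm h10
  have e5 := seg_add hn h h01 hm h01
  have e6 := cT (-1, 0) (1, 0)
  have e7 := cR _ _ h10 h21
  have e8 := cT (-1, 0) (-2, 1)
  rw [seg_self hn h h10] at e4
  rw [seg_self hn h h01] at e5
  norm_num at e6 e7 e8
  have e : 2 * pcnt n π O Φ (fun _ => 0) (seg (1, 0) (2, 0)) = 0 := by
    linear_combination 2 * e1 + 2 * z1 + e2 + e3 + e6 - e4 - e7 - e8 - e5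
  have h2 : (2 : ZMod 5) * 3 = 1 := by decide
  linear_combination 3 * e - pcnt n π O Φ (fun _ => 0) (seg (1, 0) (2, 0)) * h2

end Vale.Agent.P220Z.Rig
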