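import Vale.Agent.P220Z.Rig.Adm
import Vale.Agent.P220Z.Dyn.Step

/-!
# P220, Fuller maps of block maps: a priori bounds and homotopies
-/

open Set Topology
open scoped RealInnerProductSpace unitInterval

namespace Vale.Agent.P220Z.Rig

open Vale.Agent.P220Z.Def Vale.Agent.P220Z.Dyn

variable {U : Type} [NormedAddCommGroup U] [InnerProductSpace ℝ U]
  {A : Type} [NormedAddCommGroup A] [InnerProductSpace ℝ A] {J : A →L[ℝ] A}

/-- `pos` as a linear map -/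
noncomputable def posL (U : Type) [NormedAddCommGroup U] [InnerProductSpace ℝ U]
    (J : A →L[ℝ] A) : Fib U A →ₗ[ℝ] A where
  toFun := pos J
  map_add' x y := by
    simp only [pos, WithLp.add_snd, map_add]
    module
  map_smul' c x := by
    simp only [pos, WithLp.smul_snd, map_smul, RingHom.id_apply]
    module

/-- `neg` as a linear map -/
noncomputable def negL (U : Type) [NormedAddCommGroup U] [InnerProductSpace ℝ U]
    (J : A →L[ℝ] A) : Fib U A →ₗ[ℝ] A where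
  toFun := neg J
  map_add' x y := by
    simp only [neg, WithLp.add_snd, map_add]
    module
  map_smul' c x := by
    simp only [neg, WithLp.smul_snd, map_smul, RingHom.id_apply]
    module

/-- the sum of the squares of `L (x j)` -/
noncomputable def SS (L : Fib U A →ₗ[ℝ] A) (x : X5 (Fib U A)) : ℝ := ∑ j, ‖L (x j)‖ ^ 2

theorem SS_nonneg (L : Fib U A →ₗ[ℝ] A) (x : X5 (Fib U A)) : 0 ≤ SS L x :=
  Finset.sum_nonneg fun _ _ => sq_nonneg _

theorem le_SS (L : Fib U A →ₗ[ℝ] A) (x : X5 (Fib U A)) (j : ZMod 5) : ‖L (x j)‖ ^ 2 ≤ SS L x :=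
  Finset.single_le_sum (f := fun j => ‖L (x j)‖ ^ 2) (fun _ _ => sq_nonneg _) (Finset.mem_univ j)

theorem SS_rho (L : Fib U A →ₗ[ℝ] A) (s : ℝ) (x : X5 (Fib U A)) : SS L (rho s x) = SS L x := by
  have := sq_rho s fun j => L (x j)
  rwa [rho_mapl] at this

theorem SS_add {L : Fib U A →ₗ[ℝ] A} (hL : ∀ w, ‖L w‖ ≤ ‖w.snd‖) {η : ℝ} (hη : 0 < η)
    (x : X5 (Fib U A)) {e : X5 (Fib U A)} (he : ‖e‖ ≤ 1) :
    SS L (x + e) ≤ (1 + η) * SS L x + 5 * (1 + 1 / η) := by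
  have h : ∀ j, ‖L ((x + e) j)‖ ^ 2 ≤ (1 + η) * ‖L (x j)‖ ^ 2 + (1 + 1 / η) := fun j => by
    have h1 : ‖L (e j)‖ ≤ 1 :=
      (hL _).trans ((WithLp.norm_snd_le _ _).trans ((norm_le_pi_norm e j).trans he))
    have h2 : ‖L ((x + e) j)‖ ≤ ‖L (x j)‖ + 1 := by
      rw [Pi.add_apply, map_add]
      linarith [norm_add_le (L (x j)) (L (e j))]
    have h3 := pow_le_pow_left₀ (norm_nonneg _) h2 2
    have h4 : 0 ≤ (η * ‖L (x j)‖ - 1) ^ 2 / η := by positivity
    have h5 : (η * ‖L (x j)‖ - 1) ^ 2 / η = η * ‖L (x j)‖ ^ 2 - 2 * ‖L (x j)‖ + 1 / η := by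
      field_simp
      ring
    nlinarith
  have := Finset.sum_le_sum fun j (_ : j ∈ Finset.univ) => h j
  rw [Finset.sum_add_distrib, ← Finset.mul_sum, Finset.sum_const, Finset.card_univ, ZMod.card,
    nsmul_eq_mul] at this
  exact_mod_cast this

/-- the estimates for a pair of tuples -/
structure Tb (J : A →L[ℝ] A) (R θ C : ℝ) (x y : X5 (Fib U A)) : Prop where
  fst : ‖fun j => (y j).fst‖ ≤ R
  pos : SS (posL U J) y ≤ θ * SS (posL U J) x + C
  neg : SS (negL U J) x ≤ θ * SS (negL U J) y + C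

variable {R R' θ C : ℝ} {x y z : X5 (Fib U A)}

theorem Tb.rho (h : Tb J R θ C x y) (s : ℝ) : Tb J (5 * R) θ C x (rho s y) := by
  refine ⟨?_, by rw [SS_rho]; exact h.pos, by rw [SS_rho]; exact h.neg⟩
  have := norm_rho_le s fun j => WithLp.fstₗ 2 ℝ U A (y j)
  rw [rho_mapl] at this
  exact this.trans (mul_le_mul_of_nonneg_left h.fst (by norm_num))

theorem Tb.trans (h0 : 0 ≤ θ) (h1 : θ ≤ 1) (h : Tb J R θ C x y) (h' : Tb J R' θ C y z) :
    Tb J R' θ (2 * |C|) x z := by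
  have hC := le_abs_self C
  have hC' : θ * C ≤ |C| := by nlinarith [abs_nonneg C]
  refine ⟨h'.fst, ?_, ?_⟩
  · have a := mul_le_mul_of_nonneg_left h.pos h0
    have b := mul_le_mul_of_nonneg_left (mul_le_of_le_one_left (SS_nonneg (posL U J) x) h1) h0
    linarith [h'.pos]
  · have a := mul_le_mul_of_nonneg_left h'.neg h0
    have b := mul_le_mul_of_nonneg_left (mul_le_of_le_one_left (SS_nonneg (negL U J) z) h1) h0
    linarith [h.neg]

theorem Tb.mono (h : Tb J R θ C x y) {C' : ℝ} (hC : C ≤ C') : Tb J R θ C' x y :=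
  ⟨h.fst, by linarith [h.pos], by linarith [h.neg]⟩

/-- the a priori bound -/
theorem exists_bound {θ : ℝ} (h0 : 0 ≤ θ) (h1 : θ < 1) (C : ℝ) (hJ : IsInv J) :
    ∃ M : ℝ, 0 ≤ M ∧ ∀ (R : ℝ) (x e : X5 (Fib U A)), ‖e‖ ≤ 1 → Tb J R θ C x (x + e) →
      (∀ j, ‖(x j).snd‖ ≤ M) ∧ SS (negL U J) (x + e) ≤ M ^ 2 ∧ ‖x‖ ≤ R + 1 + M := by
  obtain ⟨η, hη, h2⟩ : ∃ η > 0, θ = 1 - 2 * η := ⟨(1 - θ) / 2, by linarith, by ring⟩
  obtain ⟨N, hN0, hN⟩ : ∃ N, 0 ≤ N ∧ η * N = 2 * |C| + 5 * (1 + 1 / η) :=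
    ⟨(2 * |C| + 5 * (1 + 1 / η)) / η, by positivity, mul_div_cancel₀ _ hη.ne'⟩
  have hp : 0 < 5 * (1 + 1 / η) := by positivity
  refine ⟨2 * (N + 1) + 5 * (1 + 1 / η), by positivity, fun R x e he h => ?_⟩
  have hC := le_abs_self C
  have hC0 := abs_nonneg C
  have a1 := SS_add (L := posL U J) hJ.pos_le hη (x + e) (e := -e) (by rwa [norm_neg])
  have a2 := SS_add (L := negL U J) hJ.neg_le hη x he
  rw [add_neg_cancel_right] at a1
  have p0 := SS_nonneg (posL U J) x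
  have n0 := SS_nonneg (negL U J) x
  have hη1 : η ≤ 1 := by linarith
  have b1 : SS (posL U J) x ≤ N := by
    refine le_of_mul_le_mul_left ?_ hη
    have c1 := mul_le_mul_of_nonneg_left h.pos (by linarith : 0 ≤ 1 + η)
    have c2 : 0 ≤ η * η * SS (posL U J) x := by positivity
    have c3 : η * C ≤ |C| := by nlinarith
    subst h2
    nlinarith
  have b2 : SS (negL U J) x ≤ N := by
    refine le_of_mul_le_mul_left ?_ hη
    have c1 := mul_le_mul_of_nonneg_left a2 h0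
    have c2 : 0 ≤ η * η * SS (negL U J) x := by positivity
    have c3 : θ * (5 * (1 + 1 / η)) ≤ 5 * (1 + 1 / η) := mul_le_of_le_one_left hp.le h1.le
    have c4 := h.neg
    subst h2
    nlinarith
  have b3 : ∀ j, ‖(x j).snd‖ ≤ 2 * (N + 1) := fun j => by
    have c1 : ‖pos J (x j)‖ ^ 2 ≤ N := (le_SS (posL U J) x j).trans b1
    have c2 : ‖neg J (x j)‖ ^ 2 ≤ N := (le_SS (negL U J) x j).trans b2
    rw [← pos_add_neg J]
    nlinarith [norm_add_le (pos J (x j)) (neg J (x j)), sq_nonneg (‖pos J (x j)‖ - 1),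
      sq_nonneg (‖neg J (x j)‖ - 1)]
  refine ⟨fun j => by linarith [b3 j], ?_, ?_⟩
  · have c1 := mul_le_mul_of_nonneg_left b2 (by linarith : 0 ≤ 1 + η)
    have c2 : η * N ≤ N := mul_le_of_le_one_left hN0 hη1
    nlinarith
  · have hR : 0 ≤ R := (norm_nonneg _).trans h.fst
    refine (pi_norm_le_iff_of_nonneg (by positivity)).2 fun j => ?_
    have c1 : ‖((x + e) j).fst‖ ≤ R := (norm_le_pi_norm (fun j => ((x + e) j).fst) j).trans h.fst
    have c2 : ‖(e j).fst‖ ≤ 1 := (WithLp.norm_fst_le _ _).trans ((norm_le_pi_norm e j).trans he)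
    have c3 : (x j).fst = ((x + e) j).fst - (e j).fst := by simp
    have c4 := norm_sub_le ((x + e) j).fst (e j).fst
    have c5 : ‖x j‖ ^ 2 = ‖(x j).fst‖ ^ 2 + ‖(x j).snd‖ ^ 2 := WithLp.prod_norm_sq_eq_of_L2 _
    have c6 : ‖x j‖ ≤ ‖(x j).fst‖ + ‖(x j).snd‖ := by
      refine (pow_le_pow_iff_left₀ (norm_nonneg _) (by positivity) two_ne_zero).1 ?_
      nlinarith [mul_nonneg (norm_nonneg (x j).fst) (norm_nonneg (x j).snd)]
    rw [← c3] at c4
    linarith [b3 j]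

/-- the retraction of the fibre to the block -/
noncomputable def rt (r : EB5 × U → U) (y : EB5 × Fib U A) : Fib U A :=
  WithLp.toLp 2 (r (y.1, y.2.fst), y.2.snd)

theorem Tb.of_blk {φ : U → ℝ} {e : ℝ} (he : 0 ≤ e) (hφ : IsDm φ R) {q : Fib U A → Fib U A}
    (hq : IsBlk φ J e θ C q) {x x' : X5 (Fib U A)} (h1 : ∀ j, φ (x' j).fst ≤ 0)
    (h2 : ∀ j, (x' j).snd = (x j).snd) : Tb J R θ (5 * C) x fun j => q (x' j) := by
  have hb : ∀ j, ‖(q (x' j)).fst‖ ≤ R := fun j => by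
    linarith [hφ.bdd _ ((hq.into _ (h1 j)).trans (neg_nonpos.2 he))]
  refine ⟨(pi_norm_le_iff_of_nonneg ((norm_nonneg _).trans (hb 0))).2 hb, ?_, ?_⟩
  · have := Finset.sum_le_sum fun j (_ : j ∈ Finset.univ) => hq.pos _ (h1 j)
    rw [Finset.sum_add_distrib, ← Finset.mul_sum, Finset.sum_const, Finset.card_univ, ZMod.card,
      nsmul_eq_mul] at this
    have e : ∀ j, Dyn.pos J (x' j) = posL U J (x j) := fun j => by
      show _ = Dyn.pos J (x j)
      simp only [Dyn.pos, h2]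
    simp only [e] at this
    exact_mod_cast this
  · have := Finset.sum_le_sum fun j (_ : j ∈ Finset.univ) => hq.neg _ (h1 j)
    rw [Finset.sum_add_distrib, ← Finset.mul_sum, Finset.sum_const, Finset.card_univ, ZMod.card,
      nsmul_eq_mul] at this
    have e : ∀ j, Dyn.neg J (x' j) = negL U J (x j) := fun j => by
      show _ = Dyn.neg J (x j)
      simp only [Dyn.neg, h2]
    simp only [e] at this
    exact_mod_cast this

variable [FiniteDimensional ℝ U] [FiniteDimensional ℝ A]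

theorem isPF_tb {P : Type} [TopologicalSpace P] (ρW : G5 →* (Fib U A ≃ₗᵢ[ℝ] Fib U A))
    (hJ : IsInv J) (h0 : 0 ≤ θ) (h1 : θ < 1) {g : P × EB5 × X5 (Fib U A) → X5 (Fib U A)}
    (hg : ContinuousOn g {w : P × EB5 × X5 (Fib U A) | w.2.1 ∈ B5})
    (he : ∀ (γ : G3) p b x, b ∈ B5 → g (p, β5 γ.1 b, pi5 ρW γ x) = pi5 ρW γ (g (p, b, x)))
    (hb : ∀ p, ∀ b ∈ B5, ∀ x, Tb J R θ C x (g (p, b, x))) {d : ℝ} (hd : d ∈ Ioc (0 : ℝ) 1) :
    IsPF (pi5 ρW) (fdom univ) (ful d g) fun _ => 0 := by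
  obtain ⟨M, -, hM⟩ := exists_bound (U := U) h0 h1 C hJ
  refine isPF_ful ρW d hd.1 univ univ g hg he (fun _ _ _ => Filter.univ_mem)
    (fun _ _ _ _ _ _ => trivial) Subset.rfl ?_ fun K _ => ⟨R + 1 + M, ?_⟩
  · rw [univ_inter]
    exact isClosed_B5.preimage (continuous_fst.comp continuous_snd)
  · intro w _ hw _ k hk e1 e2
    refine ⟨trivial, (hM R _ (k • perp w.2.2) ?_ ?_).2.2⟩
    · rw [norm_smul, Real.norm_of_nonneg hk.le, e1]
      exact hd.2
    · rw [e2]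
      exact hb _ _ hw _

/-- homotopies of block maps with admissible ends -/
theorem aInv_hom {n : NFun} (hn : IsN n) (ρW : G5 →* (Fib U A ≃ₗᵢ[ℝ] Fib U A))
    (hJ : IsInv J) (h0 : 0 ≤ θ) (h1 : θ < 1) {Q : ℝ × EB5 × Fib U A → Fib U A}
    (hQ : ContinuousOn Q {y | y.2.1 ∈ B5})
    (he : ∀ μ g, ∀ b ∈ B5, ∀ w, Q (μ, β5 g b, ρW g w) = ρW g (Q (μ, b, w)))
    (hb : ∀ μ ∈ Icc (0 : ℝ) 1, ∀ b ∈ B5, ∀ x, Tb J R θ C x fun j => Q (μ, b, x j))
    {d : ℝ} (hd : d ∈ Ioc (0 : ℝ) 1)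
    (ha : ∀ μ ∈ Icc (0 : ℝ) 1, ∀ s, s = 1 ∨ s = 2 →
      Adm (fdom univ) (ful d (rf fun y => Q (μ, y))) (fun _ => 0) s) :
    aInv n ρW d (fun y => Q (0, y)) = aInv n ρW d fun y => Q (1, y) := by
  have hP : IsPF (pi5 ρW) (fdom univ) (ful d fun w : (I × ℝ) × EB5 × X5 (Fib U A) =>
      rho w.1.2 fun j => Q (w.1.1, w.2.1, w.2.2 j)) fun _ => 0 := by
    refine isPF_tb (R := 5 * R) (C := C) ρW hJ h0 h1 ?_ (fun γ p b x hb' => ?_)
      (fun p b hb' x => (hb _ p.1.2 b hb' x).rho _) hd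
    · refine continuous_rho.comp_continuousOn
        (f := fun w : (I × ℝ) × EB5 × X5 (Fib U A) => (w.1.2, fun j => Q (w.1.1, w.2.1, w.2.2 j)))
        (ContinuousOn.prodMk (by fun_prop) (continuousOn_pi.2 fun j => ?_))
      exact hQ.comp (f := fun w : (I × ℝ) × EB5 × X5 (Fib U A) => ((w.1.1 : ℝ), w.2.1, w.2.2 j))
        (by fun_prop) fun w hw => hw
    · rw [← rho_pi5]
      congr 1
      ext j : 1
      exact he _ _ b hb' _
  have := pcnt_hom hn hP (H := fun y => (projIcc 0 1 zero_le_one y.1, 1 + y.2))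
    (Continuous.prodMk (continuous_projIcc.comp continuous_fst) (by fun_prop))
    (fun s _ => ha _ (projIcc 0 1 zero_le_one s).2 _ (Or.inl (add_zero _)))
    fun s _ => ha _ (projIcc 0 1 zero_le_one s).2 _ (Or.inr one_add_one_eq_two)
  simp only [projIcc_left, projIcc_right] at this
  exact this

end Vale.Agent.P220Z.Rig
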