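import Vale.Agent.P220Z.Def.Tool

/-!
# P220, Fuller maps and the invariant `a`: definitions

Families of problems over a parameter space, counts along paths, the one parameter group `rho`
through the shift, the cycle `w - g w + d w^⊥ / ‖w^⊥‖` of a family of maps `g`, the invariant.
-/

open Set Topology
open scoped RealInnerProductSpace

namespace Vale.Agent.P220Z.Rig

open Vale.Agent.P220Z.Def

section Path

variable {V : Type} [NormedAddCommGroup V] [NormedSpace ℝ V] {P : Type} [TopologicalSpace P]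

/-- A family of problems over `P` that is proper over `P`. -/
structure IsPF (π : G3 →* (V →L[ℝ] V)) (O : Set (P × EB5 × V)) (Φ : P × EB5 × V → V)
    (ε : P × EB5 × V → ℂ) : Prop where
  sub : ∀ w ∈ O, w.2.1 ∈ B5
  op : ∀ w ∈ O, O ∈ 𝓝[{v | v.2.1 ∈ B5}] w
  cont : ContinuousOn Φ O
  conte : ContinuousOn ε O
  mem : ∀ γ p b z, (p, b, z) ∈ O → (p, β5 γ.1 b, π γ z) ∈ O
  eq : ∀ γ p b z, (p, b, z) ∈ O → Φ (p, β5 γ.1 b, π γ z) = π γ (Φ (p, b, z))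
  eqe : ∀ γ p b z, (p, b, z) ∈ O → ε (p, β5 γ.1 b, π γ z) = om γ.2.toAdd * ε (p, b, z)
  free : ∀ w ∈ O, π sig w.2.2 ≠ w.2.2
  cpt : ∀ K : Set P, IsCompact K → IsCompact {w | w.1 ∈ K ∧ w ∈ O ∧ Φ w = 0 ∧ ε w ∈ RR}

/-- There is no solution over the parameter `p`. -/
def Adm {V P : Type} [Zero V] (O : Set (P × EB5 × V)) (Φ : P × EB5 × V → V) (ε : P × EB5 × V → ℂ)
    (p : P) : Prop :=
  ∀ b z, (p, b, z) ∈ O → Φ (p, b, z) = 0 → ε (p, b, z) ∉ RR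

/-- the count along the path `γ τ`, `0 < τ < 1` -/
def pcnt {P : Type} [FiniteDimensional ℝ V] (n : NFun) (π : G3 →* (V →L[ℝ] V))
    (O : Set (P × EB5 × V)) (Φ : P × EB5 × V → V) (ε : P × EB5 × V → ℂ) (γ : ℝ → P) : ZMod 5 :=
  n V π {w | w.1 ∈ Ioo (0 : ℝ) 1 ∧ (γ w.1, w.2) ∈ O} (fun w => Φ (γ w.1, w.2))
    fun w => ε (γ w.1, w.2)

end Path

section Ful

variable {W : Type} [NormedAddCommGroup W] [NormedSpace ℝ W]

/-- the mean -/
noncomputable def avg : X5 W →ₗ[ℝ] W where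
  toFun x := (5 : ℝ)⁻¹ • ∑ j, x j
  map_add' x y := by simp [Finset.sum_add_distrib]
  map_smul' c x := by simp [← Finset.smul_sum, smul_comm c]

/-- the component orthogonal to the diagonal -/
noncomputable def perp : X5 W →ₗ[ℝ] X5 W where
  toFun x j := x j - avg x
  map_add' x y := by
    ext j
    simp [add_sub_add_comm]
  map_smul' c x := by
    ext j
    simp [smul_sub]

/-- the kernel of `rho` -/
noncomputable def ker5 (x : ℝ) : ℝ :=
  (1 + 2 * Real.cos (2 * Real.pi * x / 5) + 2 * Real.cos (4 * Real.pi * x / 5)) / 5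

/-- the one parameter group with `rho 1 = sh` -/
noncomputable def rho (s : ℝ) : X5 W →ₗ[ℝ] X5 W where
  toFun x j := ∑ i, ker5 ((j.val : ℝ) - (i.val : ℝ) - s) • x i
  map_add' x y := by
    ext j
    simp [Finset.sum_add_distrib]
  map_smul' c x := by
    ext j
    simp [Finset.smul_sum, smul_comm c]

/-- the action of `G3` on five copies of `W` -/
noncomputable def pi5 (ρ : G5 →* (W ≃ₗᵢ[ℝ] W)) : G3 →* (X5 W →L[ℝ] X5 W) where
  toFun γ := ContinuousLinearMap.pi fun j =>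
    ((ρ γ.1).toContinuousLinearEquiv : W →L[ℝ] W).comp (ContinuousLinearMap.proj (j - γ.2.toAdd))
  map_one' := by
    ext x j
    simp
  map_mul' γ δ := by
    ext x j
    simp [sub_sub]

@[simp] theorem pi5_apply (ρ : G5 →* (W ≃ₗᵢ[ℝ] W)) (γ : G3) (x : X5 W) (j : ZMod 5) :
    pi5 ρ γ x j = ρ γ.1 (x (j - γ.2.toAdd)) := rfl

/-- the part of `O` over the base and off the diagonal -/
def fdom {P : Type} (O : Set (P × EB5 × X5 W)) : Set (P × EB5 × X5 W) :=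
  {w | w.2.1 ∈ B5 ∧ w ∈ O ∧ perp w.2.2 ≠ 0}

/-- the cycle of the family of maps `g` -/
noncomputable def ful {P : Type} (d : ℝ) (g : P × EB5 × X5 W → X5 W) (w : P × EB5 × X5 W) : X5 W :=
  w.2.2 - g w + (d / ‖perp w.2.2‖) • perp w.2.2

/-- the family `rho s ∘ f⁵` over the line of the `s` -/
noncomputable def rf (f : EB5 × W → W) (w : ℝ × EB5 × X5 W) : X5 W :=
  rho w.1 fun j => f (w.2.1, w.2.2 j)

/-- the invariant: the count along `rho s ∘ f⁵`, `1 < s < 2` -/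
noncomputable def aInv [FiniteDimensional ℝ W] (n : NFun) (ρ : G5 →* (W ≃ₗᵢ[ℝ] W)) (d : ℝ)
    (f : EB5 × W → W) : ZMod 5 :=
  pcnt n (pi5 ρ) (fdom univ) (ful d (rf f)) (fun _ => 0) fun τ => 1 + τ

end Ful

section Dom

variable {U : Type} [NormedAddCommGroup U] [InnerProductSpace ℝ U] [FiniteDimensional ℝ U]

/-- an equivariant family of retractions of `U` to `{φ ≤ 0}` -/
structure IsRetr (ρ : G5 →* (U ≃ₗᵢ[ℝ] U)) (φ : U → ℝ) (r : EB5 × U → U) : Prop where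
  cont : ContinuousOn r {y | y.1 ∈ B5}
  mem : ∀ b ∈ B5, ∀ x, φ (r (b, x)) ≤ 0
  fix : ∀ b ∈ B5, ∀ x, φ x ≤ 0 → r (b, x) = x
  eq : ∀ g, ∀ b ∈ B5, ∀ x, r (β5 g b, ρ g x) = ρ g (r (b, x))

/-- an equivariant family of Lipschitz fields on `{φ ≤ 0}` that point outwards -/
structure IsFld (ρ : G5 →* (U ≃ₗᵢ[ℝ] U)) (φ : U → ℝ) (X : EB5 × U → U) : Prop where
  cont : ContinuousOn X {y | y.1 ∈ B5 ∧ φ y.2 ≤ 0}
  eq : ∀ g, ∀ b ∈ B5, ∀ x, φ x ≤ 0 → X (β5 g b, ρ g x) = ρ g (X (b, x))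
  lip : ∃ L : ℝ, ∀ b ∈ B5, ∀ x x', φ x ≤ 0 → φ x' ≤ 0 → ‖X (b, x) - X (b, x')‖ ≤ L * ‖x - x'‖
  out : ∀ b ∈ B5, ∀ x, φ x = 0 → 0 < ⟪X (b, x), gradient φ x⟫

/-- the map `(id - t X) ∘ r` -/
noncomputable def push (t : ℝ) (X r : EB5 × U → U) (y : EB5 × U) : U := r y - t • X (y.1, r y)

/-- The invariant of the domain `{φ ≤ 0}` vanishes. -/
def AZero (n : NFun) (ρ : G5 →* (U ≃ₗᵢ[ℝ] U)) (φ : U → ℝ) : Prop :=
  ∀ r X, IsRetr ρ φ r → IsFld ρ φ X → ∃ t₀ > 0, ∀ t ∈ Ioo 0 t₀, ∃ d₀ > 0, ∀ d ∈ Ioo 0 d₀,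
    aInv n ρ d (push t X r) = 0

end Dom

end Vale.Agent.P220Z.Rig
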