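import Vale.Agent.P220Z.Rig.Path
import Vale.Agent.P220Z.Rig.Ful
import Vale.Agent.P220Z.Rig.Circ

/-!
# P220, Fuller maps: two criteria for admissibility
-/

open Set Topology
open scoped RealInnerProductSpace

namespace Vale.Agent.P220Z.Rig

open Vale.Agent.P220Z.Def

variable {W : Type} [NormedAddCommGroup W] [InnerProductSpace ℝ W]

theorem adm_of {P : Type} {d : ℝ} (hd : 0 < d) {O : Set (P × EB5 × X5 W)}
    {g : P × EB5 × X5 W → X5 W} {p : P}
    (h : ∀ b ∈ B5, ∀ x, (p, b, x) ∈ O → ∀ k > (0 : ℝ), k * ‖perp x‖ = d →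
      x + k • perp x = g (p, b, x) → perp x = 0) : Adm (fdom O) (ful d g) (fun _ => 0) p := by
  intro b x hx h0 _
  obtain ⟨k, hk, h1, h2⟩ := (ful_eq_zero hd hx.2.2).1 h0
  exact hx.2.2 (h b hx.1 x hx.2.1 k hk h1 h2)

theorem norm_perp_le_of {y : X5 W} {M : ℝ} (h : ∀ i j, ‖y i - y j‖ ≤ M) : ‖perp y‖ ≤ M := by
  have hM : 0 ≤ M := (norm_nonneg _).trans (h 0 0)
  refine (pi_norm_le_iff_of_nonneg hM).2 fun j => ?_
  have e : perp y j = avg fun i => y j - y i := by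
    have : (fun i => y j - y i) = (fun _ => y j) - y := rfl
    rw [this, map_sub, avg_const, perp_apply]
  rw [e]
  exact (norm_avg_le _).trans ((pi_norm_le_iff_of_nonneg hM).2 fun i => h j i)

theorem sub_le_perp (x : X5 W) (i j : ZMod 5) : ‖x i - x j‖ ≤ 2 * ‖perp x‖ := by
  have e : x i - x j = perp x i - perp x j := by
    rw [perp_apply, perp_apply]
    abel
  rw [e]
  linarith [norm_sub_le (perp x i) (perp x j), norm_le_pi_norm (perp x) i,
    norm_le_pi_norm (perp x) j]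

omit [InnerProductSpace ℝ W] in
theorem sq_le_sum (x : X5 W) : ‖x‖ ^ 2 ≤ ∑ j, ‖x j‖ ^ 2 := by
  have h0 : 0 ≤ ∑ j, ‖x j‖ ^ 2 := Finset.sum_nonneg fun _ _ => sq_nonneg _
  have : ‖x‖ ≤ Real.sqrt (∑ j, ‖x j‖ ^ 2) :=
    (pi_norm_le_iff_of_nonneg (Real.sqrt_nonneg _)).2 fun j => Real.le_sqrt_of_sq_le
      (Finset.single_le_sum (f := fun j => ‖x j‖ ^ 2) (fun _ _ => sq_nonneg _) (Finset.mem_univ j))
  calc ‖x‖ ^ 2 ≤ Real.sqrt (∑ j, ‖x j‖ ^ 2) ^ 2 := pow_le_pow_left₀ (norm_nonneg _) this 2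
    _ = _ := Real.sq_sqrt h0

/-- small Lipschitz perturbations of the identity -/
theorem perp_zero_lip {s : ℝ} (hs : s = 1 ∨ s = 2) {x y : X5 W} {k : ℝ} (hk : 0 ≤ k)
    (hy : ∀ i j, ‖y i - y j‖ ≤ 1 / 200 * ‖x i - x j‖) (h : x + k • perp x = rho s (x - y)) :
    perp x = 0 := by
  set v := perp x with hv
  have h1 : (1 + k) • v = rho s v - rho s (perp y) := by
    have := congrArg perp h
    rw [map_add, map_smul, perp_rho, map_sub, map_sub, hv, perp_perp] at this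
    rw [add_smul, one_smul, this]
  have h2 : ‖perp y‖ ≤ 1 / 100 * ‖v‖ :=
    norm_perp_le_of fun i j => (hy i j).trans (by linarith [sub_le_perp x i j])
  have h3 := (norm_rho_le s (perp y)).trans (mul_le_mul_of_nonneg_left h2 (by norm_num))
  have h4 : ∀ j, (1 + k) * ‖v j‖ ^ 2 ≤ ⟪rho s v j, v j⟫ + 1 / 20 * ‖v‖ ^ 2 := fun j => by
    have e := congrArg (fun z : X5 W => ⟪z j, v j⟫) h1
    simp only [Pi.smul_apply, Pi.sub_apply, inner_sub_left, real_inner_smul_left,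
      real_inner_self_eq_norm_sq] at e
    have a := abs_real_inner_le_norm (rho s (perp y) j) (v j)
    have b := mul_le_mul ((norm_le_pi_norm _ j).trans h3) (norm_le_pi_norm v j) (norm_nonneg _)
      (by positivity)
    have := (abs_le.1 (a.trans b)).1
    nlinarith
  have h5 := Finset.sum_le_sum fun j (_ : j ∈ Finset.univ) => h4 j
  rw [← Finset.mul_sum, Finset.sum_add_distrib, Finset.sum_const, Finset.card_univ, ZMod.card,
    nsmul_eq_mul] at h5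
  have h6 := qlin s hs v (avg_perp x)
  have h7 := sq_le_sum v
  have h8 : 0 ≤ k * ∑ j, ‖v j‖ ^ 2 := mul_nonneg hk ((sq_nonneg _).trans h7)
  push_cast at h5
  have h9 : ‖v‖ ^ 2 ≤ 0 := by nlinarith
  exact norm_eq_zero.1 (pow_eq_zero_iff two_ne_zero |>.1 (le_antisymm h9 (sq_nonneg _)))

/-- linear maps -/
theorem perp_zero_lin {s : ℝ} (hs : s ∈ Icc (1 : ℝ) 2) {B : W →L[ℝ] W}
    (hB : ∀ a b, ⟪B a, b⟫ = ⟪a, B b⟫) (hp : ∀ a, 0 ≤ ⟪B a, a⟫) {c : W} {v : X5 W} {k : ℝ}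
    (hk : 0 ≤ k) (h : ((fun _ => c) + v) + k • perp ((fun _ => c) + v) =
      (fun _ => c) + rho s fun j => B (v j)) : perp ((fun _ => c) + v) = 0 := by
  have e : perp ((fun _ => c) + v) = perp v := by rw [map_add, perp_const, zero_add]
  rw [e] at h ⊢
  refine lin5 s hs (1 + k) (by linarith) B hB hp _ (avg_perp v) ?_
  have h1 := congrArg perp h
  rw [map_add, e, map_smul, perp_perp, map_add, perp_const, zero_add, perp_rho] at h1
  rw [add_smul, one_smul, h1]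
  congr 1
  ext j
  rw [perp_apply, perp_apply, map_sub, avg_apply, avg_apply, map_smul, map_sum]

/-- fixed points on a section near which the maps are linear -/
theorem adm_small [FiniteDimensional ℝ W] {T : Type} [TopologicalSpace T] {K : Set T}
    (hK : IsCompact K) {O1 : Set (T × EB5 × X5 W)}
    (hc : IsClosed (O1 ∩ {w : T × EB5 × X5 W | w.2.1 ∈ B5})) {g : T × EB5 × X5 W → X5 W}
    (hg : ContinuousOn g {w : T × EB5 × X5 W | w.2.1 ∈ B5}) {M : ℝ}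
    (hM : ∀ p ∈ K, ∀ b ∈ B5, ∀ x, (p, b, x) ∈ O1 → ∀ e, ‖e‖ ≤ 1 → x + e = g (p, b, x) → ‖x‖ ≤ M)
    {c : EB5 → W} (cc : Continuous c)
    (hfix : ∀ p ∈ K, ∀ b ∈ B5, ∀ x, (p, b, x) ∈ O1 → x = g (p, b, x) → x = fun _ => c b)
    {δ : ℝ} (hδ : 0 < δ)
    (hlin : ∀ p ∈ K, ∀ b ∈ B5, ∃ s ∈ Icc (1 : ℝ) 2, ∃ B : W →L[ℝ] W,
      (∀ a b, ⟪B a, b⟫ = ⟪a, B b⟫) ∧ (∀ a, 0 ≤ ⟪B a, a⟫) ∧ ∀ v : X5 W, ‖v‖ ≤ δ →
        g (p, b, (fun _ => c b) + v) = (fun _ => c b) + rho s fun j => B (v j)) :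
    ∃ d₀ > 0, ∀ d ∈ Ioc 0 d₀, ∀ O ⊆ O1, ∀ p ∈ K, Adm (fdom O) (ful d g) (fun _ => 0) p := by
  have hC := (hK.prod (isCompact_B5.prod (isCompact_closedBall (0 : X5 W) M))).inter_right hc
  have hx : Continuous fun w : T × EB5 × X5 W => w.2.2 := continuous_snd.comp continuous_snd
  have hn : Continuous fun w : T × EB5 × X5 W => ‖w.2.2 - fun _ => c w.2.1‖ :=
    (hx.sub (continuous_pi fun _ => cc.comp (continuous_fst.comp continuous_snd))).norm
  obtain ⟨d₀, hd₀, H⟩ := small_d _ hC (fun w => w.2.2 - g w)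
    (hx.continuousOn.sub (hg.mono fun w hw => hw.2.2)) {w | ‖w.2.2 - fun _ => c w.2.1‖ < δ}
    fun w hw h0 => mem_nhdsWithin_of_mem_nhds ((isOpen_lt hn continuous_const).mem_nhds (by
      have := hfix w.1 hw.1.1 w.2.1 hw.2.2 w.2.2 hw.2.1 (sub_eq_zero.1 h0)
      show ‖w.2.2 - fun _ => c w.2.1‖ < δ
      rw [← this, sub_self, norm_zero]
      exact hδ))
  refine ⟨min d₀ 1, lt_min hd₀ one_pos, fun d hd O hO p hp => adm_of hd.1 ?_⟩
  intro b hb x hxO k hk h1 h2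
  have h3 : ‖k • perp x‖ = d := by rw [norm_smul, Real.norm_of_nonneg hk.le, h1]
  have h4 := hM p hp b hb x (hO hxO) _ (h3.le.trans (hd.2.trans (min_le_right _ _))) h2
  have h5 := H (p, b, x) ⟨⟨hp, hb, mem_closedBall_zero_iff.2 h4⟩, hO hxO, hb⟩ (by
    show ‖x - g (p, b, x)‖ ≤ d₀
    rw [← h2, sub_add_cancel_left, norm_neg, h3]
    exact hd.2.trans (min_le_left _ _))
  obtain ⟨s, hs, B, hB, hpos, hl⟩ := hlin p hp b hb
  have h6 := hl _ (le_of_lt h5)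
  have e : x = (fun _ => c b) + (x - fun _ => c b) := (add_sub_cancel _ _).symm
  rw [e] at h2 ⊢
  exact perp_zero_lin hs hB hpos hk.le (h2.trans h6)

end Vale.Agent.P220Z.Rig
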