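import Vale.Agent.P220Z.Rig.Blk

/-!
# P220, Theorem A: change of the field
-/

open Set Topology Metric
open scoped RealInnerProductSpace

namespace Vale.Agent.P220Z.Rig

open Vale.Agent.P220Z.Def Vale.Agent.P220Z.Dyn

theorem adm_lip {W : Type} [NormedAddCommGroup W] [InnerProductSpace ℝ W] {D : Set W}
    {f Y : EB5 × W → W} {d : ℝ} (hd : 0 < d)
    (hD : ∀ b ∈ B5, ∀ w w', ‖w - f (b, w')‖ ≤ d → w ∈ D)
    (hf : ∀ b ∈ B5, ∀ w ∈ D, f (b, w) = w - Y (b, w))
    (hY : ∀ b ∈ B5, ∀ w ∈ D, ∀ w' ∈ D, ‖Y (b, w) - Y (b, w')‖ ≤ 1 / 200 * ‖w - w'‖) {s : ℝ}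
    (hs : s = 1 ∨ s = 2) : Adm (fdom univ) (ful d (rf f)) (fun _ => 0) s := by
  refine adm_of hd fun b hb x _ k hk h1 h2 => ?_
  have h3 : ∀ j, x j ∈ D := fun j => by
    have : ∃ i, rf f (s, b, x) j = f (b, x i) := by
      unfold rf
      rcases hs with rfl | rfl
      · exact ⟨_, by rw [rho_one]; rfl⟩
      · exact ⟨_, by rw [rho_two]; rfl⟩
    obtain ⟨i, hi⟩ := this
    refine hD b hb _ (x i) ?_
    rw [← hi, ← h2, Pi.add_apply, sub_add_cancel_left, norm_neg, ← h1]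
    exact (norm_le_pi_norm (k • perp x) j).trans_eq (by rw [norm_smul, Real.norm_of_nonneg hk.le])
  refine perp_zero_lip hs hk.le (y := fun j => Y (b, x j))
    (fun i j => hY b hb _ (h3 i) _ (h3 j)) (h2.trans ?_)
  unfold rf
  congr 1
  ext j : 1
  exact hf b hb _ (h3 j)

variable {U : Type} [NormedAddCommGroup U] [InnerProductSpace ℝ U] [FiniteDimensional ℝ U]
  {A : Type} [NormedAddCommGroup A] [InnerProductSpace ℝ A] {J : A →L[ℝ] A}
  {φ : U → ℝ} {R : ℝ} {ρ : G5 →* (U ≃ₗᵢ[ℝ] U)}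

theorem dm_compact (hφ : IsDm φ R) : IsCompact {x | φ x ≤ 0} :=
  (isCompact_closedBall (0 : U) R).of_isClosed_subset
    (isClosed_le hφ.smooth.continuous continuous_const) fun x hx =>
      mem_closedBall_zero_iff.2 (by linarith [hφ.bdd x hx])

theorem dm_margin (hφ : IsDm φ R) {e : ℝ} (he : 0 < e) :
    ∃ δ > 0, ∀ x x', φ x' ≤ -e → ‖x - x'‖ ≤ δ → φ x ≤ 0 := by
  obtain ⟨M, hM⟩ := hφ.smooth.contDiffOn.exists_lipschitzOnWith
    (s := closedBall (0 : U) R) (by norm_num) (convex_closedBall _ _) (isCompact_closedBall _ _)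
  have hM0 : (0 : ℝ) ≤ M := M.2
  refine ⟨min 1 (e / (M + 1)), by positivity, fun x x' h1 h2 => ?_⟩
  have h3 := hφ.bdd x' (by linarith)
  have h4 := h2.trans (min_le_left _ _)
  have h5 := h2.trans (min_le_right _ _)
  rw [le_div_iff₀ (by positivity)] at h5
  have h6 := hM.dist_le_mul x (mem_closedBall_zero_iff.2
    (by linarith [norm_sub_norm_le x x'])) x' (mem_closedBall_zero_iff.2 (by linarith))
  rw [Real.dist_eq, dist_eq_norm] at h6
  nlinarith [(abs_le.1 h6).2, norm_nonneg (x - x')]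

theorem IsFld.est {X : EB5 × U → U} (hX : IsFld ρ φ X) (hφ : IsDm φ R) :
    ∃ C : ℝ, ∃ e > 0, ∃ c > 0, ∀ b ∈ B5, ∀ x, φ x ≤ 0 →
      ‖X (b, x)‖ ≤ C ∧ (-e ≤ φ x → c ≤ fderiv ℝ φ x (X (b, x))) := by
  have hK : IsCompact {y : EB5 × U | y.1 ∈ B5 ∧ φ y.2 ≤ 0} := isCompact_B5.prod (dm_compact hφ)
  have hc : Continuous fun y : EB5 × U => φ y.2 := hφ.smooth.continuous.comp continuous_snd
  obtain ⟨C, hC⟩ := hK.exists_bound_of_continuousOn hX.cont
  have hh : ContinuousOn (fun y : EB5 × U => fderiv ℝ φ y.2 (X y))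
      {y : EB5 × U | y.1 ∈ B5 ∧ φ y.2 ≤ 0} :=
    (((hφ.smooth.continuous_fderiv (by norm_num)).comp continuous_snd).continuousOn).clm_apply
      hX.cont
  obtain ⟨c, hc0, h1⟩ := (hK.inter_right (isClosed_eq hc continuous_const (g := fun _ => 0))
    ).exists_forall_le' (hh.mono inter_subset_left) (a := 0) fun y hy => by
      have := hX.out y.1 hy.1.1 y.2 hy.2
      rwa [real_inner_comm, gradient, InnerProductSpace.toDual_symm_apply] at this
  obtain ⟨e, he, h2⟩ := small_d _ hK _ hc.continuousOn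
    {y : EB5 × U | c / 2 < fderiv ℝ φ y.2 (X y)} fun y hy h0 =>
      (hh y hy).eventually (lt_mem_nhds (by linarith [h1 y ⟨hy, h0⟩]))
  refine ⟨C, e, he, c / 2, half_pos hc0, fun b hb x hx => ⟨hC (b, x) ⟨hb, hx⟩, fun h3 => ?_⟩⟩
  exact le_of_lt (h2 (b, x) ⟨hb, hx⟩ (abs_le.2 ⟨h3, hx.trans he.le⟩))

/-- the segment from the product field to `X'` -/
noncomputable def mixF (J : A →L[ℝ] A) (X : EB5 × U → U) (X' : EB5 × Fib U A → Fib U A) (μ : ℝ)
    (y : EB5 × Fib U A) : Fib U A :=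
  (1 - μ) • WithLp.toLp 2 (X (y.1, y.2.fst), J y.2.snd) + μ • X' y

omit [InnerProductSpace ℝ U] [FiniteDimensional ℝ U] [InnerProductSpace ℝ A] in
theorem fib_le (w : Fib U A) : ‖w‖ ≤ ‖w.fst‖ + ‖w.snd‖ := by
  refine (pow_le_pow_iff_left₀ (norm_nonneg _) (by positivity) two_ne_zero).1 ?_
  nlinarith [mul_nonneg (norm_nonneg w.fst) (norm_nonneg w.snd), WithLp.prod_norm_sq_eq_of_L2 w]

omit [NormedAddCommGroup U] [InnerProductSpace ℝ U] [FiniteDimensional ℝ U]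
  [NormedAddCommGroup A] [InnerProductSpace ℝ A] in
theorem fib_ext {w w' : Fib U A} (h1 : w.fst = w'.fst) (h2 : w.snd = w'.snd) : w = w' :=
  WithLp.ofLp_injective 2 (Prod.ext h1 h2)

theorem cvx_le {μ a b C : ℝ} (hμ : μ ∈ Icc (0 : ℝ) 1) (ha : a ≤ C) (hb : b ≤ C) :
    (1 - μ) * a + μ * b ≤ C := by
  nlinarith [mul_le_mul_of_nonneg_left ha (sub_nonneg.2 hμ.2), mul_le_mul_of_nonneg_left hb hμ.1]

theorem norm_cvx {E : Type} [NormedAddCommGroup E] [NormedSpace ℝ E] {μ C : ℝ}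
    (hμ : μ ∈ Icc (0 : ℝ) 1) {a b : E} (ha : ‖a‖ ≤ C) (hb : ‖b‖ ≤ C) :
    ‖(1 - μ) • a + μ • b‖ ≤ C := by
  refine (norm_add_le _ _).trans ?_
  rw [norm_smul, norm_smul, Real.norm_of_nonneg hμ.1, Real.norm_of_nonneg (sub_nonneg.2 hμ.2)]
  exact cvx_le hμ ha hb

variable {ρW : G5 →* (Fib U A ≃ₗᵢ[ℝ] Fib U A)} {r X : EB5 × U → U}
  {X' : EB5 × Fib U A → Fib U A}

/-- the steps along the fields of the segment -/
noncomputable def mixQ (J : A →L[ℝ] A) (X r : EB5 × U → U) (X' : EB5 × Fib U A → Fib U A) (t : ℝ)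
    (y : ℝ × EB5 × Fib U A) : Fib U A := rt r y.2 - t • mixF J X X' y.1 (y.2.1, rt r y.2)

omit [FiniteDimensional ℝ U] [InnerProductSpace ℝ A] in
theorem rt_cont (hr : IsRetr ρ φ r) : ContinuousOn (rt (A := A) r) {y | y.1 ∈ B5} := by
  have h1 : Continuous fun y : EB5 × Fib U A => (y.1, y.2.fst) := by fun_prop
  have h2 : Continuous fun y : EB5 × Fib U A => y.2.snd := by fun_prop
  exact (WithLp.prod_continuous_toLp 2 U A).comp_continuousOn
    ((hr.cont.comp h1.continuousOn fun y hy => hy).prodMk h2.continuousOn)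

omit [FiniteDimensional ℝ U] in
theorem rt_equi (hW : ∀ g w, (ρW g w).fst = ρ g w.fst ∧ (ρW g w).snd = w.snd)
    (hr : IsRetr ρ φ r) (g : G5) {b : EB5} (hb : b ∈ B5) (w : Fib U A) :
    rt r (β5 g b, ρW g w) = ρW g (rt r (b, w)) := by
  refine fib_ext ?_ ?_
  · rw [(hW g _).1]
    show r (β5 g b, (ρW g w).fst) = _
    rw [(hW g _).1, hr.eq g b hb]
    rfl
  · rw [(hW g _).2]
    exact (hW g _).2

theorem mixQ_cont (hr : IsRetr ρ φ r) (hX : IsFld ρ φ X) (hX' : Continuous X') (t : ℝ) :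
    ContinuousOn (mixQ J X r X' t) {y | y.2.1 ∈ B5} := by
  have h0 : Continuous fun y : ℝ × EB5 × Fib U A => y.2.1 := continuous_fst.comp continuous_snd
  have h1 : ContinuousOn (fun y : ℝ × EB5 × Fib U A => rt r y.2) {y | y.2.1 ∈ B5} :=
    (rt_cont hr).comp continuous_snd.continuousOn fun y hy => hy
  have f1 : Continuous fun w : Fib U A => w.fst := by fun_prop
  have f2 : Continuous fun w : Fib U A => J w.snd := by fun_prop
  have h2 : ContinuousOn (fun y : ℝ × EB5 × Fib U A => X (y.2.1, (rt r y.2).fst))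
      {y | y.2.1 ∈ B5} :=
    hX.cont.comp (h0.continuousOn.prodMk (f1.comp_continuousOn h1)) fun y hy => ⟨hy, hr.mem _ hy _⟩
  have h3 : ContinuousOn (fun y : ℝ × EB5 × Fib U A =>
      WithLp.toLp 2 (X (y.2.1, (rt r y.2).fst), J (rt r y.2).snd)) {y | y.2.1 ∈ B5} :=
    (WithLp.prod_continuous_toLp 2 U A).comp_continuousOn (h2.prodMk (f2.comp_continuousOn h1))
  have h4 : ContinuousOn (fun y : ℝ × EB5 × Fib U A => X' (y.2.1, rt r y.2)) {y | y.2.1 ∈ B5} :=
    hX'.comp_continuousOn (h0.continuousOn.prodMk h1)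
  exact h1.sub ((((continuous_const.sub continuous_fst).continuousOn.smul h3).add
    (continuous_fst.continuousOn.smul h4)).const_smul t)

theorem mixQ_equi (hW : ∀ g w, (ρW g w).fst = ρ g w.fst ∧ (ρW g w).snd = w.snd)
    (hr : IsRetr ρ φ r) (hX : IsFld ρ φ X)
    (hX' : ∀ g, ∀ b ∈ B5, ∀ w, X' (β5 g b, ρW g w) = ρW g (X' (b, w))) (t μ : ℝ) (g : G5)
    (b : EB5) (hb : b ∈ B5) (w : Fib U A) :
    mixQ J X r X' t (μ, β5 g b, ρW g w) = ρW g (mixQ J X r X' t (μ, b, w)) := by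
  have e2 : ∀ w : Fib U A, φ w.fst ≤ 0 →
      WithLp.toLp 2 (X (β5 g b, (ρW g w).fst), J (ρW g w).snd) =
        ρW g (WithLp.toLp 2 (X (b, w.fst), J w.snd)) := fun w hw => by
    refine fib_ext ?_ ?_
    · rw [(hW g _).1, (hW g _).1, hX.eq g b hb _ hw]
      rfl
    · rw [(hW g _).2, (hW g _).2]
      rfl
  simp only [mixQ, rt_equi hW hr g hb, mixF, e2 (rt r (b, w)) (hr.mem b hb _), hX' g b hb,
    map_sub, map_add, map_smul]

variable [FiniteDimensional ℝ A]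

/-- The invariant of an admissible field is the invariant of the product field, and the ends of
the problem on `U` are admissible. -/
theorem aInv_chg {n : NFun} (hn : IsN n) (hφ : IsDm φ R) (hJ : IsInv J)
    (hW : ∀ g w, (ρW g w).fst = ρ g w.fst ∧ (ρW g w).snd = w.snd)
    (hr : IsRetr ρ φ r) (hX : IsFld ρ φ X) {L' C' e₀ c₀ : ℝ} (he₀ : 0 < e₀) (hc₀ : 0 < c₀)
    (hX' : Dyn.IsFld β5 B5 ρW φ J R L' C' e₀ c₀ X') :
    ∃ t₀ > 0, ∀ t ∈ Ioc 0 t₀, ∃ d₀ > 0, ∀ d ∈ Ioc 0 d₀,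
      (∀ s, s = 1 ∨ s = 2 → Adm (fdom univ) (ful d (rf (push t X r))) (fun _ => 0) s) ∧
      aInv n ρW d (fun y => WithLp.toLp 2 (push t X r (y.1, y.2.fst), y.2.snd - t • J y.2.snd)) =
        aInv n ρW d fun y => rt r y - t • X' (y.1, rt r y) := by
  obtain ⟨L, hL⟩ := hX.lip
  obtain ⟨C, e, he, c, hc, hest⟩ := hX.est hφ
  have hR : ∀ w : Fib U A, φ w.fst ≤ 0 → ‖w.fst‖ ≤ R := fun w hw => by linarith [hφ.bdd _ hw]
  obtain ⟨t₁, ht₁, hs⟩ := stStep U φ R (|C| + |C'|) (min e e₀) (min c c₀) hφ (lt_min he he₀)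
    (lt_min hc hc₀)
  have hC := le_abs_self C
  have hC' := le_abs_self C'
  have hC0 := abs_nonneg C
  have hC0' := abs_nonneg C'
  have hΛ : 0 < |L| + 1 + |L'| := by positivity
  refine ⟨min (min t₁ 1) (1 / 200 / (|L| + 1 + |L'|)), by positivity, fun t ht => ?_⟩
  have ht0 := ht.1
  have ht1 : t ≤ t₁ := ht.2.trans ((min_le_left _ _).trans (min_le_left _ _))
  have ht2 : t ≤ 1 := ht.2.trans ((min_le_left _ _).trans (min_le_right _ _))
  have ht3 : t * (|L| + 1 + |L'|) ≤ 1 / 200 := (le_div_iff₀ hΛ).1 (ht.2.trans (min_le_right _ _))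
  have stp : ∀ μ ∈ Icc (0 : ℝ) 1, ∀ b ∈ B5, Stp φ J t (|C| + |C'|) (min e e₀) (min c c₀)
      fun w => mixF J X X' μ (b, w) := fun μ hμ b hb => by
    refine ⟨hJ, ht0, ht2, lt_min he he₀, lt_min hc hc₀, by positivity, fun s hs' w hw => ?_,
      fun w hw => ?_⟩
    · refine hs s ⟨hs'.1, hs'.2.trans ht1⟩ w.fst ((1 - μ) • X (b, w.fst) + μ • (X' (b, w)).fst) hw
        (norm_cvx hμ (by linarith [(hest b hb _ hw).1])
          (by linarith [(hX'.bdd b hb w (hR w hw)).1])) fun h => ?_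
      have h1 := (min_le_left c c₀).trans
        ((hest b hb _ hw).2 (by linarith [min_le_left e e₀]))
      have h2 := (min_le_right c c₀).trans
        (hX'.face b hb w (by linarith [min_le_right e e₀]) hw)
      rw [map_add, map_smul, map_smul, smul_eq_mul, smul_eq_mul]
      linarith [cvx_le hμ (neg_le_neg h1) (neg_le_neg h2)]
    · have e : (mixF J X X' μ (b, w)).snd - J w.snd =
          (1 - μ) • (0 : A) + μ • ((X' (b, w)).snd - J w.snd) := by
        show (1 - μ) • J w.snd + μ • (X' (b, w)).snd - J w.snd = _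
        module
      rw [e]
      exact norm_cvx hμ (by rw [norm_zero]; positivity)
        (by linarith [(hX'.bdd b hb w (hR w hw)).2])
  have h1 := one_sub_pos ht0
  have blk : ∀ μ ∈ Icc (0 : ℝ) 1, ∀ b ∈ B5, IsBlk φ J (min (t * min c c₀ / 2) (min e e₀ / 2))
      (1 / (1 + t)) ((2 * (|C| + |C'|)) ^ 2 / (1 - 1 / (1 + t)))
      fun w => w - t • mixF J X X' μ (b, w) := fun μ hμ b hb =>
    (stp μ hμ b hb).blk (s := 0) ⟨le_rfl, ht0.le⟩ (by rw [mul_div_cancel₀ _ h1.ne']) 0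
  have he' : 0 < min (t * min c c₀ / 2) (min e e₀ / 2) := by positivity
  obtain ⟨δ, hδ, hmar⟩ := dm_margin hφ he'
  have hrt : ∀ b ∈ B5, ∀ w : Fib U A, φ (rt r (b, w)).fst ≤ 0 := fun b hb w => hr.mem b hb _
  have lip : ∀ μ ∈ Icc (0 : ℝ) 1, ∀ b ∈ B5, ∀ w w' : Fib U A, φ w.fst ≤ 0 → φ w'.fst ≤ 0 →
      ‖t • mixF J X X' μ (b, w) - t • mixF J X X' μ (b, w')‖ ≤ 1 / 200 * ‖w - w'‖ := by
    intro μ hμ b hb w w' hw hw'
    have e : mixF J X X' μ (b, w) - mixF J X X' μ (b, w') =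
        (1 - μ) • WithLp.toLp 2 (X (b, w.fst) - X (b, w'.fst), J (w - w').snd) +
          μ • (X' (b, w) - X' (b, w')) := by
      refine fib_ext ?_ ?_
      · show (1 - μ) • X (b, w.fst) + μ • (X' (b, w)).fst -
          ((1 - μ) • X (b, w'.fst) + μ • (X' (b, w')).fst) =
          (1 - μ) • (X (b, w.fst) - X (b, w'.fst)) + μ • ((X' (b, w)).fst - (X' (b, w')).fst)
        module
      · show (1 - μ) • J w.snd + μ • (X' (b, w)).snd -
          ((1 - μ) • J w'.snd + μ • (X' (b, w')).snd) =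
          (1 - μ) • J (w.snd - w'.snd) + μ • ((X' (b, w)).snd - (X' (b, w')).snd)
        rw [map_sub]
        module
    have n0 := norm_nonneg (w - w')
    have a1 : ‖w.fst - w'.fst‖ ≤ ‖w - w'‖ := WithLp.norm_fst_le _ (w - w')
    have a2 : ‖(w - w').snd‖ ≤ ‖w - w'‖ := WithLp.norm_snd_le _ _
    have a3 := (hL b hb _ _ hw hw').trans
      (mul_le_mul (le_abs_self L) a1 (norm_nonneg _) (abs_nonneg _))
    have a4 := (hX'.lip b hb w w' (hR w hw) (hR w' hw')).trans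
      (mul_le_mul_of_nonneg_right (le_abs_self L') n0)
    have a5 := fib_le (WithLp.toLp 2 (X (b, w.fst) - X (b, w'.fst), J (w - w').snd))
    have a6 : ‖mixF J X X' μ (b, w) - mixF J X X' μ (b, w')‖ ≤ (|L| + 1 + |L'|) * ‖w - w'‖ := by
      rw [e]
      refine norm_cvx hμ (a5.trans ?_) (a4.trans ?_)
      · show ‖X (b, w.fst) - X (b, w'.fst)‖ + ‖J (w - w').snd‖ ≤ _
        rw [hJ.norm_eq]
        nlinarith [abs_nonneg L']
      · nlinarith [abs_nonneg L]
    rw [← smul_sub, norm_smul, Real.norm_of_nonneg ht0.le]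
    nlinarith [mul_le_mul_of_nonneg_left a6 ht0.le]
  refine ⟨min δ 1, lt_min hδ one_pos, fun d hd => ⟨fun s hs' => ?_, ?_⟩⟩
  · refine adm_lip (D := {x | φ x ≤ 0}) (Y := fun y => t • X y) hd.1 (fun b hb x x' h => ?_)
      (fun b hb x hx => by simp only [push, hr.fix b hb x hx]) (fun b hb x hx x' hx' => ?_) hs'
    · refine hmar x _ ?_ (h.trans (hd.2.trans (min_le_left _ _)))
      have := (blk 0 ⟨le_rfl, zero_le_one⟩ b hb).into (WithLp.toLp 2 (r (b, x'), 0))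
        (hr.mem b hb _)
      simpa [mixF, push] using this
    · have n0 := norm_nonneg (x - x')
      have a3 := (hL b hb _ _ hx hx').trans (mul_le_mul_of_nonneg_right (le_abs_self L) n0)
      rw [← smul_sub, norm_smul, Real.norm_of_nonneg ht0.le]
      nlinarith [mul_le_mul_of_nonneg_left a3 ht0.le, mul_nonneg (mul_nonneg ht0.le n0)
        (abs_nonneg L'), mul_nonneg ht0.le n0]
  · have key := aInv_hom (R := R) hn ρW hJ (θ := 1 / (1 + t)) (by positivity) (by linarith)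
      (mixQ_cont (J := J) hr hX hX'.cont t) (mixQ_equi hW hr hX hX'.equi t)
      (fun μ hμ b hb x => Tb.of_blk he'.le hφ (blk μ hμ b hb) (x' := fun j => rt r (b, x j))
        (fun j => hrt b hb _) fun _ => rfl)
      (d := d) ⟨hd.1, hd.2.trans (min_le_right _ _)⟩ fun μ hμ s hs' => ?_
    · convert key using 2
      · ext y : 1
        refine fib_ext ?_ ?_ <;> simp [mixQ, mixF, rt, push]
      · ext y : 1
        simp [mixQ, mixF]
    · refine adm_lip (D := {w | φ w.fst ≤ 0}) (Y := fun y => t • mixF J X X' μ y) hd.1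
        (fun b hb w w' h => ?_) (fun b hb w hw => ?_)
        (fun b hb w hw w' hw' => lip μ hμ b hb w w' hw hw') hs'
      · exact hmar _ _ ((blk μ hμ b hb).into _ (hrt b hb w'))
          ((WithLp.norm_fst_le _ (w - _)).trans (h.trans (hd.2.trans (min_le_left _ _))))
      · have : rt r (b, w) = w := fib_ext (hr.fix b hb _ hw) rfl
        simp only [mixQ, this]

end Vale.Agent.P220Z.Rig
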