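import Vale.Agent.P220Z.Rig.Path
import Vale.Agent.P220Z.Rig.Ful
import Vale.Agent.P220Z.Rig.Circ

/-!
# P220, the invariant of a product with a nonnegative symmetric map without fixed vector
-/

open Set Topology
open scoped unitInterval

namespace Vale.Agent.P220Z.Rig

open Vale.Agent.P220Z.Def

namespace PR

section gen

variable {V : Type} [NormedAddCommGroup V] [NormedSpace ℝ V] {π : G3 →* (V →L[ℝ] V)}

theorem slice {O : Set ((I × ℝ) × EB5 × V)} {Φ : (I × ℝ) × EB5 × V → V}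
    (h : IsPr π O Φ fun _ => 0) (s : I) :
    IsPr π (atP s ⁻¹' O) (fun w => Φ (atP s w)) fun _ => 0 := by
  have hF : Continuous (atP s : ℝ × EB5 × V → _) := by
    unfold atP
    fun_prop
  refine ⟨fun w hw => h.sub (atP s w) hw, fun w hw => ?_, h.cont.comp hF.continuousOn fun _ hw => hw,
    continuousOn_const, fun γ p b z => h.mem γ (s, p) b z, fun γ p b z => h.eq γ (s, p) b z,
    fun γ p b z _ => (mul_zero _).symm, fun w hw => h.free (atP s w) hw, ?_⟩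
  · obtain ⟨A, hA, hw', hs⟩ := mem_nhdsWithin.1 (h.op (atP s w) hw)
    exact mem_nhdsWithin.2 ⟨_, hA.preimage hF, hw', fun v hv => hs (a := atP s v) hv⟩
  · have h1 : IsClosed {w : (I × ℝ) × EB5 × V | w.1.1 = s} :=
      isClosed_eq (by fun_prop) continuous_const
    have := (h.cpt.inter_right h1).image (f := fun w => (w.1.2, w.2)) (by fun_prop)
    refine Eq.subst (motive := IsCompact) (Set.ext fun w => ⟨?_, fun hw => ?_⟩) this
    · rintro ⟨⟨⟨s', t⟩, y⟩, ⟨h2, h3⟩, rfl⟩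
      obtain rfl : s' = s := h3
      exact h2
    · exact ⟨atP s w, ⟨hw, rfl⟩, rfl⟩

theorem restrict {O : Set (ℝ × EB5 × V)} {Φ : ℝ × EB5 × V → V} (h : IsPr π O Φ fun _ => 0)
    {N : Set V} (hN : IsOpen N) (hm : ∀ γ, ∀ z ∈ N, π γ z ∈ N)
    (hz : ∀ w ∈ O, Φ w = 0 → w.2.2 ∈ N) : IsPr π {w | w ∈ O ∧ w.2.2 ∈ N} Φ fun _ => 0 := by
  refine ⟨fun w hw => h.sub _ hw.1, fun w hw => ?_, h.cont.mono fun _ hw => hw.1,
    continuousOn_const, fun γ p b z hw => ⟨h.mem γ p b z hw.1, hm γ z hw.2⟩,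
    fun γ p b z hw => h.eq γ p b z hw.1, fun γ p b z _ => (mul_zero _).symm,
    fun w hw => h.free _ hw.1, ?_⟩
  · exact Filter.inter_mem (h.op _ hw.1) (mem_nhdsWithin_of_mem_nhds
      ((hN.preimage (f := fun w : ℝ × EB5 × V => w.2.2) (by fun_prop)).mem_nhds hw.2))
  · refine Eq.subst (motive := IsCompact) (Set.ext fun w => ?_) h.cpt
    exact ⟨fun hw => ⟨⟨hw.1, hz w hw.1 hw.2.1⟩, hw.2⟩, fun hw => ⟨hw.1.1, hw.2⟩⟩

theorem zero_RR : (0 : ℂ) ∈ RR := ⟨0, 0, le_rfl, by simp⟩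

variable {W W' : Type} [NormedAddCommGroup W] [NormedSpace ℝ W] [NormedAddCommGroup W']
  [NormedSpace ℝ W']

theorem avg_map (L : W →L[ℝ] W') (x : X5 W) : avg (fun j => L (x j)) = L (avg x) := by
  rw [avg_apply, avg_apply, map_smul, map_sum]

theorem perp_map (L : W →L[ℝ] W') (x : X5 W) :
    perp (fun j => L (x j)) = fun j => L (perp x j) := by
  funext j
  rw [perp_apply, perp_apply, avg_map, map_sub]

theorem cont_rf {f : EB5 × W → W} (hf : ContinuousOn f {y | y.1 ∈ B5}) :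
    ContinuousOn (rf f) {w : ℝ × EB5 × X5 W | w.2.1 ∈ B5} :=
  continuous_rho.comp_continuousOn (f := fun w : ℝ × EB5 × X5 W => (w.1, fun j => f (w.2.1, w.2.2 j)))
    (continuousOn_fst.prodMk (continuousOn_pi.2 fun j => hf.comp
      (f := fun w : ℝ × EB5 × X5 W => (w.2.1, w.2.2 j)) (by fun_prop) fun _ hw => hw))

theorem eqv_rf {ρ : G5 →* (W ≃ₗᵢ[ℝ] W)} {f : EB5 × W → W}
    (he : ∀ g, ∀ b ∈ B5, ∀ x, f (β5 g b, ρ g x) = ρ g (f (b, x))) (γ : G3) (p : ℝ) (b : EB5)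
    (x : X5 W) (hb : b ∈ B5) : rf f (p, β5 γ.1 b, pi5 ρ γ x) = pi5 ρ γ (rf f (p, b, x)) := by
  rw [rf, rf, ← rho_pi5]
  congr 1
  funext j
  exact he _ b hb _

theorem isPr_rf [FiniteDimensional ℝ W] (ρ : G5 →* (W ≃ₗᵢ[ℝ] W)) {d : ℝ} (hd : 0 < d)
    {f : EB5 × W → W} (hf : ContinuousOn f {y | y.1 ∈ B5})
    (he : ∀ g, ∀ b ∈ B5, ∀ x, f (β5 g b, ρ g x) = ρ g (f (b, x))) {R : ℝ}
    (hz : ∀ w : ℝ × EB5 × X5 W, w.1 ∈ Icc (1 : ℝ) 2 → w.2.1 ∈ B5 → perp w.2.2 ≠ 0 →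
      ful d (rf f) w = 0 → w.1 ∈ Ioo (1 : ℝ) 2 ∧ ‖w.2.2‖ ≤ R) :
    IsPr (pi5 ρ) {w : ℝ × EB5 × X5 W | w.1 ∈ Ioo (0 : ℝ) 1 ∧ (1 + w.1, w.2) ∈ fdom univ}
      (fun w => ful d (rf f) (1 + w.1, w.2)) fun _ => 0 := by
  have h := isPF_ful ρ d hd {w | w.1 ∈ Ioo (1 : ℝ) 2} {w | w.1 ∈ Icc (1 : ℝ) 2} (rf f) (cont_rf hf)
    (eqv_rf he) (fun w hw _ => mem_nhdsWithin_of_mem_nhds
      ((isOpen_Ioo.preimage continuous_fst).mem_nhds hw)) (fun _ _ _ _ _ h => h)
    (fun _ h => Ioo_subset_Icc_self h) ((isClosed_Icc.preimage continuous_fst).inter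
      (isClosed_B5.preimage (f := fun w : ℝ × EB5 × X5 W => w.2.1) (by fun_prop)))
    fun K _ => ⟨R, fun w h1 h2 _ k hk e1 e2 => by
      have hne : perp w.2.2 ≠ 0 := fun h0 => by
        rw [h0, norm_zero, mul_zero] at e1
        exact hd.ne e1
      exact hz w h1 h2 hne ((ful_eq_zero hd hne).2 ⟨k, hk, e1, e2⟩)⟩
  have h' := h.isPr (γ := fun τ => 1 + τ) (by fun_prop) (a := 0) (b := 1)
    (fun b z hw => absurd hw.2.1.1 (by simp)) fun b z hw => absurd hw.2.1.2 (by norm_num)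
  refine Eq.subst (motive := fun O => IsPr (pi5 ρ) O _ _) (Set.ext fun w => ?_) h'
  exact ⟨fun hw => ⟨hw.1, hw.2.1, trivial, hw.2.2.2⟩, fun hw => ⟨hw.1, hw.2.1,
    ⟨by linarith [hw.1.1], by linarith [hw.1.2]⟩, hw.2.2.2⟩⟩

end gen

variable {U A : Type} [NormedAddCommGroup U] [InnerProductSpace ℝ U] [FiniteDimensional ℝ U]
  [NormedAddCommGroup A] [InnerProductSpace ℝ A] [FiniteDimensional ℝ A]

/-- five copies of a sum -/
noncomputable def TT : X5 (WithLp 2 (U × A)) ≃L[ℝ] X5 U × X5 A :=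
  LinearEquiv.toContinuousLinearEquiv
    { toFun := fun w => (fun j => (w j).fst, fun j => (w j).snd)
      invFun := fun z j => WithLp.toLp 2 (z.1 j, z.2 j)
      map_add' := fun _ _ => rfl
      map_smul' := fun _ _ => rfl
      left_inv := fun _ => rfl
      right_inv := fun _ => rfl }

theorem TT_perp (w : X5 (WithLp 2 (U × A))) : TT (perp w) = (perp (TT w).1, perp (TT w).2) :=
  Prod.ext (perp_map (WithLp.fstL 2 ℝ U A) w).symm (perp_map (WithLp.sndL 2 ℝ U A) w).symm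

theorem TT_rho (s : ℝ) (w : X5 (WithLp 2 (U × A))) :
    TT (rho s w) = (rho s (TT w).1, rho s (TT w).2) :=
  Prod.ext (rho_map s (WithLp.fstL 2 ℝ U A) w).symm (rho_map s (WithLp.sndL 2 ℝ U A) w).symm

theorem norm_fst (w : X5 (WithLp 2 (U × A))) : ‖(TT w).1‖ ≤ ‖w‖ :=
  (pi_norm_le_iff_of_nonneg (norm_nonneg _)).2 fun j =>
    (WithLp.norm_fst_le U (w j)).trans (norm_le_pi_norm w j)

theorem norm_inl (x : X5 U) : ‖(TT.symm (x, 0) : X5 (WithLp 2 (U × A)))‖ = ‖x‖ :=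
  le_antisymm ((pi_norm_le_iff_of_nonneg (norm_nonneg _)).2 fun j =>
    (WithLp.norm_toLp_fst 2 U A (x j)).trans_le (norm_le_pi_norm x j))
    (norm_fst (TT.symm (x, 0) : X5 (WithLp 2 (U × A))))

/-- the denominator -/
noncomputable def nu (μ : ℝ) (z : X5 U × X5 A) : ℝ :=
  (1 - μ) * ‖perp (TT.symm z : X5 (WithLp 2 (U × A)))‖ + μ * ‖perp z.1‖

theorem le_nu (μ : I) (z : X5 U × X5 A) : ‖perp z.1‖ ≤ nu μ z := by
  have h := norm_fst (perp (TT.symm z : X5 (WithLp 2 (U × A))))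
  rw [TT_perp, ContinuousLinearEquiv.apply_symm_apply] at h
  have := mul_le_mul_of_nonneg_left h (sub_nonneg.2 μ.2.2)
  rw [nu]
  linarith

theorem nu_inl (μ : ℝ) (x : X5 U) : nu μ ((x, 0) : X5 U × X5 A) = ‖perp x‖ := by
  have h : perp (TT.symm (x, 0) : X5 (WithLp 2 (U × A))) = TT.symm (perp x, 0) := by
    rw [ContinuousLinearEquiv.eq_symm_apply, TT_perp, ContinuousLinearEquiv.apply_symm_apply,
      map_zero]
  rw [nu, h, norm_inl]
  ring

/-- the second component -/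
noncomputable def sec (B : A →L[ℝ] A) (μ s k : ℝ) (y : X5 A) : X5 A :=
  y - (fun _ => B (avg y)) - (1 - μ) • rho s (fun j => B (perp y j)) + ((1 - μ) * k) • perp y

omit [FiniteDimensional ℝ A] in
theorem sec_zero {B : A →L[ℝ] A} (hB : ∀ a b, inner ℝ (B a) b = inner ℝ a (B b))
    (hp : ∀ a, 0 ≤ inner ℝ (B a) a) (hi : ∀ a, B a = a → a = 0) {μ s k : ℝ} (hμ : μ ≤ 1)
    (hs : s ∈ Icc (1 : ℝ) 2) (hk : 0 ≤ k) {y : X5 A} (h : sec B μ s k y = 0) : y = 0 := by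
  have h1 := congrArg avg h
  rw [sec, map_add, map_sub, map_sub, map_smul, map_smul, avg_const, avg_rho, avg_map, avg_perp,
    map_zero, map_zero, smul_zero, smul_zero, sub_zero, add_zero, sub_eq_zero] at h1
  have h2 : avg y = 0 := hi _ h1.symm
  have h3 : perp y = y := by
    funext j
    rw [perp_apply, h2, sub_zero]
  have hμ' := sub_nonneg.2 hμ
  refine lin5 s hs (1 + (1 - μ) * k) (by positivity) ((1 - μ) • B) (fun a b => ?_) (fun a => ?_) y
    h2 ?_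
  · simp only [smul_apply, real_inner_smul_left, real_inner_smul_right, hB]
  · simp only [smul_apply, real_inner_smul_left]
    exact mul_nonneg hμ' (hp a)
  · rw [sec, h2, h3, map_zero] at h
    have e : (fun j => ((1 - μ) • B) (y j)) = (1 - μ) • fun j => B (y j) := rfl
    have e0 : (fun _ : ZMod 5 => (0 : A)) = 0 := rfl
    rw [e, map_smul, add_smul, one_smul, ← sub_eq_zero, ← h, e0]
    abel

omit [FiniteDimensional ℝ A] in
theorem sec_at0 (B : A →L[ℝ] A) (s k : ℝ) (y : X5 A) :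
    sec B 0 s k y = y - rho s (fun j => B (y j)) + k • perp y := by
  have e : (fun j => B (y j)) = (fun _ => B (avg y)) + fun j => B (perp y j) := by
    funext j
    rw [Pi.add_apply, ← map_add, perp_apply, add_sub_cancel]
  rw [sec, e, map_add, rho_const, sub_zero, one_smul, one_mul, sub_sub]

/-- the homotopy -/
noncomputable def hom (d : ℝ) (f : EB5 × U → U) (B : A →L[ℝ] A)
    (w : (I × ℝ) × EB5 × X5 U × X5 A) : X5 U × X5 A :=
  (w.2.2.1 - rf f (1 + w.1.2, w.2.1, w.2.2.1) + (d / nu w.1.1 w.2.2) • perp w.2.2.1,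
    sec B w.1.1 (1 + w.1.2) (d / nu w.1.1 w.2.2) w.2.2.2)

/-- its domain -/
def dom : Set ((I × ℝ) × EB5 × X5 U × X5 A) :=
  {w | w.1.2 ∈ Ioo (0 : ℝ) 1 ∧ (1 + w.1.2, w.2.1, w.2.2.1) ∈ fdom univ}

theorem cont_nu : Continuous fun w : ℝ × X5 U × X5 A => nu w.1 w.2 := by
  have h1 : Continuous fun w : ℝ × X5 U × X5 A =>
      (TT.symm w.2 : X5 (WithLp 2 (U × A))) := TT.symm.continuous.comp' continuous_snd
  have h2 := (continuous_perp.comp' h1).norm
  have h3 : Continuous fun w : ℝ × X5 U × X5 A => ‖perp w.2.1‖ :=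
    (continuous_perp.comp' continuous_snd.fst).norm
  unfold nu
  exact ((continuous_const.sub continuous_fst).mul h2).add (continuous_fst.mul h3)

omit [FiniteDimensional ℝ A] in
theorem cont_sec (B : A →L[ℝ] A) :
    Continuous fun w : (ℝ × ℝ × ℝ) × X5 A => sec B w.1.1 w.1.2.1 w.1.2.2 w.2 := by
  have cq : Continuous fun w : (ℝ × ℝ × ℝ) × X5 A => perp w.2 := continuous_perp.comp continuous_snd
  have cr : Continuous fun w : (ℝ × ℝ × ℝ) × X5 A => rho w.1.2.1 fun j => B (perp w.2 j) :=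
    continuous_rho.comp (f := fun w : (ℝ × ℝ × ℝ) × X5 A => (w.1.2.1, fun j => B (perp w.2 j)))
      (continuous_fst.snd.fst.prodMk
        (continuous_pi fun j => B.continuous.comp ((continuous_apply j).comp cq)))
  exact ((continuous_snd.sub (continuous_pi fun _ =>
    B.continuous.comp (continuous_avg.comp continuous_snd))).sub
    ((continuous_const.sub continuous_fst.fst).smul cr)).add
    (((continuous_const.sub continuous_fst.fst).mul continuous_fst.snd.snd).smul cq)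

theorem cont_hom (d : ℝ) {f : EB5 × U → U} (hf : ContinuousOn f {y | y.1 ∈ B5}) (B : A →L[ℝ] A) :
    ContinuousOn (hom d f B) dom := by
  have cm : Continuous fun w : (I × ℝ) × EB5 × X5 U × X5 A => (w.1.1 : ℝ) :=
    continuous_subtype_val.comp continuous_fst.fst
  have cs : Continuous fun w : (I × ℝ) × EB5 × X5 U × X5 A => 1 + w.1.2 :=
    continuous_const.add continuous_fst.snd
  have cx : Continuous fun w : (I × ℝ) × EB5 × X5 U × X5 A => w.2.2.1 := continuous_snd.snd.fst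
  have ck : ContinuousOn (fun w : (I × ℝ) × EB5 × X5 U × X5 A => d / nu w.1.1 w.2.2) dom :=
    continuousOn_const.div (cont_nu.comp (cm.prodMk continuous_snd.snd)).continuousOn fun w hw =>
      ((norm_pos_iff.2 hw.2.2.2).trans_le (le_nu w.1.1 w.2.2)).ne'
  refine ContinuousOn.prodMk ?_ ?_
  · exact (cx.continuousOn.sub ((cont_rf hf).comp
      (cs.prodMk (continuous_snd.fst.prodMk cx)).continuousOn fun _ hw => hw.2.1)).add
      (ck.smul (continuous_perp.comp cx).continuousOn)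
  · exact (cont_sec B).comp_continuousOn ((cm.continuousOn.prodMk
      (cs.continuousOn.prodMk ck)).prodMk continuous_snd.snd.snd.continuousOn)

end PR

open PR

theorem aInv_prod {U A : Type} [NormedAddCommGroup U] [InnerProductSpace ℝ U]
    [FiniteDimensional ℝ U] [NormedAddCommGroup A] [InnerProductSpace ℝ A] [FiniteDimensional ℝ A]
    {n : NFun} (hn : IsN n) (ρ0 : G5 →* (U ≃ₗᵢ[ℝ] U)) (ρA : G5 →* (A ≃ₗᵢ[ℝ] A))
    (ρW : G5 →* (WithLp 2 (U × A) ≃ₗᵢ[ℝ] WithLp 2 (U × A)))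
    (hW : ∀ g w, (ρW g w).fst = ρ0 g w.fst ∧ (ρW g w).snd = ρA g w.snd) (f : EB5 × U → U)
    (hf : ContinuousOn f {y | y.1 ∈ B5})
    (he : ∀ g, ∀ b ∈ B5, ∀ x, f (β5 g b, ρ0 g x) = ρ0 g (f (b, x)))
    (hb : ∃ R : ℝ, ∀ b ∈ B5, ∀ x, ‖f (b, x)‖ ≤ R) (B : A →L[ℝ] A)
    (hB : ∀ a b, inner ℝ (B a) b = inner ℝ a (B b)) (hp : ∀ a, 0 ≤ inner ℝ (B a) a)
    (hc : ∀ g a, B (ρA g a) = ρA g (B a)) (hi : ∀ a, B a = a → a = 0) (d : ℝ) (hd : 0 < d)
    (h1 : Adm (fdom univ) (ful d (rf f)) (fun _ => 0) 1)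
    (h2 : Adm (fdom univ) (ful d (rf f)) (fun _ => 0) 2)
    (h0 : aInv n ρW d (fun y => WithLp.toLp 2 (f (y.1, y.2.fst), B y.2.snd)) = 0) :
    aInv n ρ0 d f = 0 := by
  obtain ⟨R, hR⟩ := hb
  have hzU : ∀ w : ℝ × EB5 × X5 U, w.1 ∈ Icc (1 : ℝ) 2 → w.2.1 ∈ B5 → perp w.2.2 ≠ 0 →
      ful d (rf f) w = 0 → w.1 ∈ Ioo (1 : ℝ) 2 ∧ ‖w.2.2‖ ≤ 5 * R + d := by
    rintro ⟨s, b, x⟩ hs hb hx h
    constructor
    · rcases eq_endpoints_or_mem_Ioo_of_mem_Icc hs with e | e | e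
      · obtain rfl : s = 1 := e
        exact (h1 b x ⟨hb, trivial, hx⟩ h zero_RR).elim
      · obtain rfl : s = 2 := e
        exact (h2 b x ⟨hb, trivial, hx⟩ h zero_RR).elim
      · exact e
    · obtain ⟨k, hk, e1, e2⟩ := (ful_eq_zero hd hx).1 h
      have e3 : ‖rf f (s, b, x)‖ ≤ 5 * R := (norm_rho_le _ _).trans (mul_le_mul_of_nonneg_left
        ((pi_norm_le_iff_of_nonneg ((norm_nonneg _).trans (hR b hb 0))).2 fun j => hR b hb _)
        (by norm_num))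
      have e4 := norm_sub_le (x + k • perp x) (k • perp x)
      rw [add_sub_cancel_right, norm_smul, Real.norm_of_nonneg hk.le] at e4
      dsimp only at e1 e2 ⊢
      rw [e1, e2] at e4
      linarith
  have hU := isPr_rf ρ0 hd hf he hzU
  set F : EB5 × WithLp 2 (U × A) → WithLp 2 (U × A) :=
    fun y => WithLp.toLp 2 (f (y.1, y.2.fst), B y.2.snd) with hF
  have hT : ∀ γ w, TT (pi5 ρW γ w) = prodRep (pi5 ρ0) (pi5 ρA) γ (TT w) := fun γ w =>
    Prod.ext (funext fun j => (hW _ _).1) (funext fun j => (hW _ _).2)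
  have hT' : ∀ γ z, TT.symm (prodRep (pi5 ρ0) (pi5 ρA) γ z) = pi5 ρW γ (TT.symm z) := fun γ z => by
    rw [ContinuousLinearEquiv.symm_apply_eq, hT, ContinuousLinearEquiv.apply_symm_apply]
  have hful : ∀ (τ : ℝ) b w, TT (ful d (rf F) (1 + τ, b, w)) = hom d f B ((0, τ), b, TT w) := by
    intro τ b w
    simp only [ful, hom, rf, map_add, map_sub, map_smul, TT_rho, TT_perp, nu, Icc.coe_zero, sec_at0,
      ContinuousLinearEquiv.symm_apply_apply, sub_zero, one_mul, zero_mul, add_zero]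
    rfl
  have hz : ∀ w : (I × ℝ) × EB5 × X5 U × X5 A, 1 + w.1.2 ∈ Icc (1 : ℝ) 2 → hom d f B w = 0 →
      w.2.2.2 = 0 ∧ ful d (rf f) (1 + w.1.2, w.2.1, w.2.2.1) = 0 := by
    rintro ⟨⟨μ, τ⟩, b, x, y⟩ hs h
    obtain rfl : y = 0 := sec_zero hB hp hi μ.2.2 hs
      (div_nonneg hd.le ((norm_nonneg _).trans (le_nu μ (x, y)))) (congrArg Prod.snd h)
    have := congrArg Prod.fst h
    simp only [hom, nu_inl] at this
    exact ⟨rfl, this⟩
  have hzW : ∀ (τ : ℝ) b w, 1 + τ ∈ Icc (1 : ℝ) 2 → perp w ≠ 0 →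
      ful d (rf F) (1 + τ, b, w) = 0 →
      perp (TT w).1 ≠ 0 ∧ ‖w‖ = ‖(TT w).1‖ ∧ ful d (rf f) (1 + τ, b, (TT w).1) = 0 := by
    intro τ b w hs hw h
    obtain ⟨e1, e2⟩ := hz ((0, τ), b, TT w) hs (by rw [← hful, h, map_zero])
    have e3 : w = TT.symm ((TT w).1, 0) := by
      rw [ContinuousLinearEquiv.eq_symm_apply]
      exact Prod.ext rfl e1
    refine ⟨fun e => hw (TT.injective ?_), (congrArg norm e3).trans (norm_inl _), e2⟩
    rw [TT_perp, e, map_zero]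
    exact Prod.ext rfl ((congrArg perp e1).trans (map_zero _))
  have hWp := isPr_rf ρW hd (f := F) (R := 5 * R + d)
    ((WithLp.prod_continuous_toLp 2 U A).comp_continuousOn
      ((hf.comp (f := fun y : EB5 × WithLp 2 (U × A) => (y.1, y.2.fst)) (by fun_prop)
        fun _ h => h).prodMk (by fun_prop)))
    (fun g b hb x => by
      refine WithLp.ofLp_injective 2 (Prod.ext ?_ ?_)
      · exact ((congrArg (fun u => f (β5 g b, u)) (hW g x).1).trans (he g b hb _)).trans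
          (hW g (F (b, x))).1.symm
      · exact ((congrArg B (hW g x).2).trans (hc g _)).trans (hW g (F (b, x))).2.symm)
    fun w hs hb hw h => by
      obtain ⟨s, b, w⟩ := w
      obtain ⟨τ, rfl⟩ : ∃ τ, s = 1 + τ := ⟨s - 1, by ring⟩
      obtain ⟨e1, e2, e3⟩ := hzW τ b w hs hw h
      have := hzU (1 + τ, b, (TT w).1) hs hb e1 e3
      exact ⟨this.1, e2.trans_le this.2⟩
  have hI : ∀ τ ∈ Ioo (0 : ℝ) 1, 1 + τ ∈ Icc (1 : ℝ) 2 := fun τ h =>
    ⟨by linarith [h.1], by linarith [h.2]⟩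
  have hnu : ∀ (γ : G3) μ (z : X5 U × X5 A), nu μ (prodRep (pi5 ρ0) (pi5 ρA) γ z) = nu μ z := by
    intro γ μ z
    rw [nu, nu, hT', perp_pi5, norm_pi5]
    congr 2
    exact (congrArg norm (perp_pi5 ρ0 γ z.1)).trans (norm_pi5 _ _ _)
  have hH : IsPr (prodRep (pi5 ρ0) (pi5 ρA)) dom (hom d f B) fun _ => 0 := by
    have hG : Continuous fun w : (I × ℝ) × EB5 × X5 U × X5 A => (w.1.2, w.2.1, w.2.2.1) := by
      fun_prop
    refine ⟨fun w hw => hw.2.1, fun w hw => ?_, cont_hom d hf B, continuousOn_const,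
      fun γ p b z h => hU.mem γ p.2 b z.1 h, fun γ p b z h => ?_,
      fun γ p b z _ => (mul_zero _).symm, fun w hw h => hU.free (w.1.2, w.2.1, w.2.2.1) hw
        (congrArg Prod.fst h), ?_⟩
    · obtain ⟨N, hN, hw', hs⟩ := mem_nhdsWithin.1 (hU.op (w.1.2, w.2.1, w.2.2.1) hw)
      exact mem_nhdsWithin.2 ⟨_, hN.preimage hG, hw', fun v hv => hs (a := (v.1.2, v.2.1, v.2.2.1)) hv⟩
    · simp only [hom, hnu]
      refine Prod.ext ?_ ?_
      · show pi5 ρ0 γ z.1 - rf f (1 + p.2, β5 γ.1 b, pi5 ρ0 γ z.1) + _ • perp (pi5 ρ0 γ z.1) =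
          pi5 ρ0 γ (z.1 - rf f (1 + p.2, b, z.1) + _ • perp z.1)
        rw [eqv_rf he γ _ b _ h.2.1, perp_pi5, map_add, map_sub, map_smul]
      · show sec B _ _ _ (pi5 ρA γ z.2) = pi5 ρA γ (sec B _ _ _ z.2)
        have e1 : (fun _ => B (avg (pi5 ρA γ z.2))) = pi5 ρA γ fun _ => B (avg z.2) :=
          funext fun j => by rw [avg_pi5, hc, pi5_apply]
        have e2 : (fun j => B (perp (pi5 ρA γ z.2) j)) = pi5 ρA γ fun j => B (perp z.2 j) :=
          funext fun j => by rw [perp_pi5, pi5_apply, hc, pi5_apply]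
        rw [sec, sec, e1, e2, rho_pi5, perp_pi5, map_add, map_sub, map_sub, map_smul, map_smul]
    · have := ((isCompact_univ (X := I)).prod hU.cpt).image
        (f := fun q => (((q.1, q.2.1), q.2.2.1, q.2.2.2, 0) : (I × ℝ) × EB5 × X5 U × X5 A))
        (by fun_prop)
      refine Eq.subst (motive := IsCompact) (Set.ext fun w => ⟨?_, fun hw => ?_⟩) this
      · rintro ⟨⟨μ, τ, b, x⟩, ⟨-, h3, h4, -⟩, rfl⟩
        refine ⟨h3, Prod.ext ?_ ?_, zero_RR⟩
        · simp only [hom, nu_inl]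
          exact h4
        · have e0 : (fun _ : ZMod 5 => (0 : A)) = 0 := rfl
          simp [hom, sec, e0]
      · obtain ⟨e1, e2⟩ := hz w (hI _ hw.1.1) hw.2.1
        exact ⟨(w.1.1, w.1.2, w.2.1, w.2.2.1), ⟨trivial, hw.1, e2, zero_RR⟩, by rw [← e1]⟩
  have c1 := hn.conj _ _ _ (pi5 ρW) _ _ _ TT hT (slice hH 0)
  have hr := restrict hWp (N := {w | perp (TT w).1 ≠ 0})
    (isOpen_ne_fun (continuous_perp.comp (by fun_prop)) continuous_const)
    (fun γ z hz => by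
      show perp (TT (pi5 ρW γ z)).1 ≠ 0
      rw [hT]
      exact perp_pi5_ne ρ0 hz)
    fun w hw h => (hzW w.1 w.2.1 w.2.2 (hI _ hw.1) hw.2.2.2 h).1
  have c2 := hn.exc _ _ _ _ _ _ _ _ hWp hr (fun _ h => h.1)
    (fun w hw h _ => ⟨hw, (hzW w.1 w.2.1 w.2.2 (hI _ hw.1) hw.2.2.2 h).1⟩) fun _ _ => ⟨rfl, rfl⟩
  have c3 : n _ (prodRep (pi5 ρ0) (pi5 ρA)) (atP 0 ⁻¹' dom) (fun w => hom d f B (atP 0 w))
      (fun _ => 0) = 0 := by
    rw [← c1, ← h0, aInv, pcnt, ← c2]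
    congr 1
    · ext w
      refine ⟨fun hw => ⟨⟨hw.1, hw.2.1, trivial, fun e => hw.2.2.2 ?_⟩, hw.2.2.2⟩,
        fun hw => ⟨hw.1.1, hw.1.2.1, trivial, hw.2⟩⟩
      have := congrArg Prod.fst (TT_perp w.2.2)
      rw [show perp w.2.2 = 0 from e, map_zero] at this
      exact this.symm
    · funext w
      rw [ContinuousLinearEquiv.symm_apply_eq]
      exact (hful _ _ _).symm
  rw [hn.hom _ _ _ _ _ hH] at c3
  let L0 : X5 A →ₗ[ℝ] X5 A := LinearMap.id - LinearMap.pi fun _ => (B : A →ₗ[ℝ] A).comp avg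
  have hL : ∀ y, L0 y = y - fun _ => B (avg y) := fun _ => rfl
  have hinj : Function.Injective L0 := (injective_iff_map_eq_zero _).2 fun y hy =>
    sec_zero hB hp hi (μ := 1) (s := 1) (k := 0) le_rfl ⟨le_rfl, one_le_two⟩ le_rfl (by
      rw [sec, ← hL, hy]
      simp)
  let L1 := (LinearEquiv.ofInjectiveEndo L0 hinj).toContinuousLinearEquiv
  have hL1 : ∀ y, L1 y = y - fun _ => B (avg y) := fun _ => rfl
  have hL2 : ∀ γ y, L1.symm (pi5 ρA γ y) = pi5 ρA γ (L1.symm y) := fun γ y => by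
    rw [ContinuousLinearEquiv.symm_apply_eq, hL1]
    conv_lhs => rw [← L1.apply_symm_apply y, hL1, map_sub]
    congr 1
    funext j
    rw [avg_pi5, hc, pi5_apply]
  have c4 := hn.lin _ (prodRep (pi5 ρ0) (pi5 ρA)) _ _ _ ((ContinuousLinearEquiv.refl ℝ (X5 U)).prodCongr L1.symm)
    (fun γ z => Prod.ext rfl (hL2 γ z.2)) (slice hH 1)
  rw [c3, mul_zero] at c4
  rw [aInv, pcnt, ← hn.susp _ (X5 A) _ (pi5 ρA) _ _ _ hU, ← c4]
  congr 1
  funext w
  refine Prod.ext ?_ ?_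
  · simp [hom, atP, nu, ful]
  · show w.2.2.2 = L1.symm (sec B (1 : I) _ _ w.2.2.2)
    rw [ContinuousLinearEquiv.eq_symm_apply, hL1, sec]
    simp

end Vale.Agent.P220Z.Rig
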