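import Vale.Agent.P220Z.Rig.Chg
import Vale.Agent.P220Z.Rig.Prod
import Vale.Agent.P220Z.Dyn.ThACore
import Vale.Agent.P220Z.Top.Sk3

/-!
# P220, Theorem A: rigid data force the invariant of the domain to vanish
-/

open Set
open scoped RealInnerProductSpace

namespace Vale.Agent.P220Z.Rig

open Vale.Agent.P220Z.Def Vale.Agent.P220Z.Dyn

theorem thA {U A : Type} [NormedAddCommGroup U] [InnerProductSpace ℝ U] [FiniteDimensional ℝ U]
    [NormedAddCommGroup A] [InnerProductSpace ℝ A] [FiniteDimensional ℝ A] {n : NFun}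
    (hn : IsN n) {ρ : G5 →* (U ≃ₗᵢ[ℝ] U)} {ρW : G5 →* (Fib U A ≃ₗᵢ[ℝ] Fib U A)} {φ : U → ℝ}
    {J : A →L[ℝ] A} {R L C e₀ c₀ : ℝ} {F : EB5 × Fib U A → ℝ} {X : EB5 × Fib U A → Fib U A}
    (hW : ∀ g w, (ρW g w).fst = ρ g w.fst ∧ (ρW g w).snd = w.snd)
    (h : IsRD β5 B5 ρW φ J R L C e₀ c₀ F X) : AZero n ρ φ := by
  intro r Y hr hY
  obtain ⟨X', L', C', hX', t₁, ht₁, h1⟩ := thA_core hn h hr hW
  obtain ⟨t₂, ht₂, h2⟩ := aInv_chg hn h.dm h.inv hW hr hY h.epos h.cpos hX'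
  obtain ⟨C₁, _, -, _, -, hC₁⟩ := hY.est h.dm
  refine ⟨min (min t₁ t₂) 1, by positivity, fun t ht => ?_⟩
  have ht0 := ht.1
  have ht1 : t ≤ 1 := ht.2.le.trans (min_le_right _ _)
  obtain ⟨d₁, hd₁, h3⟩ := h1 t ⟨ht0, ht.2.le.trans ((min_le_left _ _).trans (min_le_left _ _))⟩
  obtain ⟨d₂, hd₂, h4⟩ := h2 t ⟨ht0, ht.2.le.trans ((min_le_left _ _).trans (min_le_right _ _))⟩
  refine ⟨min d₁ d₂, lt_min hd₁ hd₂, fun d hd => ?_⟩
  obtain ⟨h5, h6⟩ := h4 d ⟨hd.1, hd.2.le.trans (min_le_right _ _)⟩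
  refine aInv_prod hn ρ 1 ρW hW (push t Y r)
    (hr.cont.sub ((hY.cont.comp (continuousOn_fst.prodMk hr.cont)
      fun y hy => ⟨hy, hr.mem _ hy _⟩).const_smul t))
    (fun g b hb x => ?_) ⟨R + C₁, fun b hb x => ?_⟩ (1 - t • J) (fun a b => ?_) (fun a => ?_)
    (fun _ _ => rfl) (fun a ha => ?_) d hd.1 (h5 1 (Or.inl rfl)) (h5 2 (Or.inr rfl))
    (h6.trans (h3 d ⟨hd.1, hd.2.le.trans (min_le_left _ _)⟩))
  · simp only [push, hr.eq g b hb, hY.eq g b hb _ (hr.mem b hb x), map_sub, map_smul]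
  · have a1 := h.dm.bdd _ (hr.mem b hb x)
    have a2 := (hC₁ b hb _ (hr.mem b hb x)).1
    refine (norm_sub_le (r (b, x)) (t • Y (b, r (b, x)))).trans ?_
    rw [norm_smul, Real.norm_of_nonneg ht0.le]
    nlinarith [norm_nonneg (Y (b, r (b, x)))]
  · show ⟪a - t • J a, b⟫ = ⟪a, b - t • J b⟫
    rw [inner_sub_left, inner_sub_right, real_inner_smul_left, real_inner_smul_right, h.inv.symm]
  · show 0 ≤ ⟪a - t • J a, a⟫
    have := real_inner_le_norm (J a) a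
    rw [h.inv.norm_eq] at this
    rw [inner_sub_left, real_inner_smul_left, real_inner_self_eq_norm_mul_norm]
    nlinarith [mul_self_nonneg ‖a‖]
  · have e : t • J a = 0 := sub_eq_self.1 ha
    rw [← norm_eq_zero, ← h.inv.norm_eq, norm_eq_zero]
    exact (smul_eq_zero.1 e).resolve_left ht0.ne'

theorem stThA : Top.StThA := by
  rintro n hn U _ _ _ ρ φ - - ⟨A, _, _, _, J, R, L, C, e₀, c₀, F, X, h⟩
  exact thA hn (fun _ _ => ⟨rfl, rfl⟩) h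

end Vale.Agent.P220Z.Rig
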